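import Claimed.Agent.R257.TR.Good

/-!
# R257 / TR / BT / Slope : the slope law (t:angular-probability) at finite scale      (helper194)

H t:block-test, paragraph "We now construct one nonconcentrating direction measure ...".
* `TModel.alt ω T`   : the sample point `ω` with the alternative tube `T_0'` replaced by `T`;
* `tr_bt_resample`   : resampling `T_0'` from `κ 0 X` leaves the sampling law invariant;
* `tr_bt_slope_one`  : one radius: if on `E` the centred mass at radius `ru` is `≤ B`, the exact and the approximate ratio differ by `≤ δ` and `2r + 2δ ≤ ru`,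
                       then `P(E ∩ F ∩ {|ã_j - z| ≤ r}) ≤ B P(F)` for every event `F` which does not depend on `T_0'`;
* `tr_bt_h_mass`     : a test `c < h_j(u)` bounds the centred mass by `L^{-c}`;
* `tr_bt_slope`      : all radii `r ≥ L^{-b}/2`, from the `N` tests `κ₀ u_k - α b < h_j(u_k)`, `u_k = b k / N`.
-/

set_option autoImplicit false

namespace Claimed.Agent.R257.TR

open Claimed.Agent.R255 Claimed.Agent.R257 MeasureTheory Filter Topology
open scoped BigOperators ENNReal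
open Classical

variable {n : ℕ}

/-- the sample point with the alternative tube `T_0'` replaced by `T` -/
noncomputable def TModel.alt (M : TModel n) (ω : M.Om) (T : M.τ) : M.Om := (ω.1, Function.update ω.2 (0, true) T)

@[simp] theorem tr_bt_alt_fst (M : TModel n) (ω : M.Om) (T : M.τ) : (M.alt ω T).1 = ω.1 := rfl

@[simp] theorem tr_bt_alt_snd_self (M : TModel n) (ω : M.Om) (T : M.τ) : (M.alt ω T).2 (0, true) = T := by
  simp [TModel.alt]

theorem tr_bt_alt_snd_ne (M : TModel n) (ω : M.Om) (T : M.τ) (q : Fin (n + 1) × Bool) (hq : q ≠ (0, true)) :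
    (M.alt ω T).2 q = ω.2 q := by
  simp [TModel.alt, Function.update_of_ne hq]

@[simp] theorem tr_bt_alt_snd_false (M : TModel n) (ω : M.Om) (T : M.τ) (i : Fin (n + 1)) :
    (M.alt ω T).2 (i, false) = ω.2 (i, false) :=
  tr_bt_alt_snd_ne M ω T _ (by simp)

@[simp] theorem tr_bt_alt_alt (M : TModel n) (ω : M.Om) (T T' : M.τ) : M.alt (M.alt ω T) T' = M.alt ω T' := by
  simp [TModel.alt]

@[simp] theorem tr_bt_alt_self (M : TModel n) (ω : M.Om) : M.alt ω (ω.2 (0, true)) = ω := by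
  simp [TModel.alt]

/-- exchange identity of the weights -/
theorem tr_bt_alt_p (M : TModel n) (ω : M.Om) (T : M.τ) :
    M.law.p (M.alt ω T) * M.κ 0 ω.1 (ω.2 (0, true)) = M.law.p ω * M.κ 0 ω.1 T := by
  have h1 : ∀ q : Fin (n + 1) × Bool, M.κ q.1 ω.1 (Function.update ω.2 (0, true) T q)
      = Function.update (fun q : Fin (n + 1) × Bool => M.κ q.1 ω.1 (ω.2 q)) (0, true) (M.κ 0 ω.1 T) q := by
    intro q
    by_cases hq : q = (0, true)
    · subst hq; simp
    · simp [Function.update_of_ne hq]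
  have h2 : ∏ q : Fin (n + 1) × Bool, M.κ q.1 ω.1 (Function.update ω.2 (0, true) T q)
      = M.κ 0 ω.1 T * ∏ q ∈ Finset.univ \ {((0 : Fin (n + 1)), true)}, M.κ q.1 ω.1 (ω.2 q) := by
    simp only [h1]
    exact Finset.prod_update_of_mem (Finset.mem_univ _) _ _
  have h3 : ∏ q : Fin (n + 1) × Bool, M.κ q.1 ω.1 (ω.2 q)
      = M.κ 0 ω.1 (ω.2 (0, true)) * ∏ q ∈ Finset.univ \ {((0 : Fin (n + 1)), true)}, M.κ q.1 ω.1 (ω.2 q) :=
    Finset.prod_eq_mul_prod_sdiff_singleton_of_mem (f := fun q : Fin (n + 1) × Bool => M.κ q.1 ω.1 (ω.2 q))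
      (Finset.mem_univ ((0 : Fin (n + 1)), true))
  show (Fintype.card M.π : ℝ)⁻¹ * (∏ q : Fin (n + 1) × Bool, M.κ q.1 ω.1 (Function.update ω.2 (0, true) T q)) * _
    = (Fintype.card M.π : ℝ)⁻¹ * (∏ q : Fin (n + 1) × Bool, M.κ q.1 ω.1 (ω.2 q)) * _
  rw [h2, h3]
  ring

/-- **resampling**: drawing `T_0'` afresh from `κ 0 X` leaves the sampling law invariant -/
theorem tr_bt_resample (M : TModel n) (g : M.Om → ℝ) :
    ∑ ω, M.law.p ω * g ω = ∑ ω, M.law.p ω * ∑ T, M.κ 0 ω.1 T * g (M.alt ω T) := by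
  have hinv : Function.Involutive (fun x : M.Om × M.τ => (M.alt x.1 x.2, x.1.2 (0, true))) := by
    intro x
    simp
  have e1 : ∑ ω, M.law.p ω * ∑ T, M.κ 0 ω.1 T * g (M.alt ω T)
      = ∑ x : M.Om × M.τ, M.law.p x.1 * M.κ 0 x.1.1 x.2 * g (M.alt x.1 x.2) := by
    refine Eq.trans ?_ (Fintype.sum_prod_type (fun x : M.Om × M.τ => M.law.p x.1 * M.κ 0 x.1.1 x.2 * g (M.alt x.1 x.2))).symm
    refine Finset.sum_congr rfl fun ω _ => ?_
    rw [Finset.mul_sum]
    refine Finset.sum_congr rfl fun T _ => ?_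
    ring
  have e2 : ∑ ω, M.law.p ω * g ω = ∑ x : M.Om × M.τ, M.law.p x.1 * M.κ 0 x.1.1 x.2 * g x.1 := by
    refine Eq.trans ?_ (Fintype.sum_prod_type (fun x : M.Om × M.τ => M.law.p x.1 * M.κ 0 x.1.1 x.2 * g x.1)).symm
    refine Finset.sum_congr rfl fun ω _ => ?_
    have : ∑ T, M.law.p ω * M.κ 0 ω.1 T * g ω = M.law.p ω * g ω * ∑ T, M.κ 0 ω.1 T := by
      rw [Finset.mul_sum]
      refine Finset.sum_congr rfl fun T _ => ?_
      ring
    rw [this, M.κ_sum, mul_one]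
  rw [e1, e2, ← Equiv.sum_comp hinv.toPerm]
  refine Finset.sum_congr rfl fun x _ => ?_
  show M.law.p (M.alt x.1 x.2) * M.κ 0 (M.alt x.1 x.2).1 (x.1.2 (0, true)) * g (M.alt x.1 x.2) = _
  rw [tr_bt_alt_fst, tr_bt_alt_p]

@[simp] theorem tr_bt_alt_rfr (M : TModel n) (ω : M.Om) (T : M.τ) : M.rfr (rf0 n) (M.alt ω T) = M.rfr (rf0 n) ω := by
  funext i
  simp [TModel.rfr, rf0]

@[simp] theorem tr_bt_alt_rat (M : TModel n) (i j : Fin (n + 1)) (ω : M.Om) (T T' : M.τ) :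
    M.rat i j (M.alt ω T) T' = M.rat i j ω T' := by
  simp [TModel.rat]

/-- probability as a sum of indicators -/
theorem tr_bt_pr_eq (M : TModel n) (E : M.Om → Prop) : M.law.pr E = ∑ ω, M.law.p ω * (if E ω then 1 else 0) := by
  unfold FLaw.pr
  refine Finset.sum_congr rfl fun ω _ => ?_
  split_ifs <;> simp

/-- comparison of two events by resampling -/
theorem tr_bt_resample_le (M : TModel n) (G F : M.Om → Prop) (B : ℝ)
    (h : ∀ ω, ∑ T, M.κ 0 ω.1 T * (if G (M.alt ω T) then (1 : ℝ) else 0) ≤ B * (if F ω then 1 else 0)) :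
    M.law.pr G ≤ B * M.law.pr F := by
  rw [tr_bt_pr_eq, tr_bt_resample, tr_bt_pr_eq, Finset.mul_sum]
  refine Finset.sum_le_sum fun ω _ => ?_
  calc M.law.p ω * _ ≤ M.law.p ω * (B * (if F ω then 1 else 0)) := mul_le_mul_of_nonneg_left (h ω) (M.law.nonneg ω)
    _ = B * (M.law.p ω * (if F ω then 1 else 0)) := by ring

/-- **slope law, one radius** -/
theorem tr_bt_slope_one (M : TModel n) (j : Fin (n + 1)) (bs : ℚ) (E F : M.Om → Prop)
    (hF : ∀ ω T, F (M.alt ω T) ↔ F ω) (δ r z ru B : ℝ) (hB : 0 ≤ B)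
    (hE : ∀ ω, E ω → ∑ T with |M.rat 0 j ω T - M.rat 0 j ω (ω.2 (0, true))| ≤ ru, M.κ 0 ω.1 T ≤ B)
    (hδ : ∀ ω, E ω → |M.rat 0 j ω (ω.2 (0, true)) - M.art bs j ω| ≤ δ)
    (hr : 2 * r + 2 * δ ≤ ru) :
    M.law.pr (fun ω => E ω ∧ F ω ∧ |M.art bs j ω - z| ≤ r) ≤ B * M.law.pr F := by
  refine tr_bt_resample_le M _ F B fun ω => ?_
  by_cases hFω : F ω
  · rw [if_pos hFω, mul_one]
    by_cases hex : ∃ T, E (M.alt ω T) ∧ |M.art bs j (M.alt ω T) - z| ≤ r
    · obtain ⟨Ts, hs1, hs2⟩ := hex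
      have h1 := hE _ hs1
      simp only [tr_bt_alt_rat, tr_bt_alt_fst, tr_bt_alt_snd_self] at h1
      refine le_trans ?_ h1
      rw [Finset.sum_filter]
      refine Finset.sum_le_sum fun T _ => ?_
      by_cases hT : E (M.alt ω T) ∧ F (M.alt ω T) ∧ |M.art bs j (M.alt ω T) - z| ≤ r
      · rw [if_pos hT, mul_one]
        have d1 := hδ _ hT.1
        have d2 := hδ _ hs1
        simp only [tr_bt_alt_rat, tr_bt_alt_snd_self] at d1 d2
        have : |M.rat 0 j ω T - M.rat 0 j ω Ts| ≤ ru := by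
          have a1 := abs_le.1 d1
          have a2 := abs_le.1 d2
          have a3 := abs_le.1 hT.2.2
          have a4 := abs_le.1 hs2
          refine abs_le.2 ⟨?_, ?_⟩ <;> linarith [a1.1, a1.2, a2.1, a2.2, a3.1, a3.2, a4.1, a4.2]
        rw [if_pos this]
      · rw [if_neg hT, mul_zero]
        split_ifs
        · exact M.κ_nonneg _ _ _
        · exact le_refl _
    · refine le_trans (le_of_eq ?_) hB
      refine Finset.sum_eq_zero fun T _ => ?_
      rw [if_neg, mul_zero]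
      rintro ⟨a1, -, a3⟩
      exact hex ⟨T, a1, a3⟩
  · rw [if_neg hFω, mul_zero]
    refine le_of_eq (Finset.sum_eq_zero fun T _ => ?_)
    rw [if_neg, mul_zero]
    rintro ⟨-, a2, -⟩
    exact hFω ((hF ω T).1 a2)

/-- positive mass of the sample point gives positive conditional mass of every sampled tube -/
theorem tr_bt_kappa_pos (M : TModel n) (ω : M.Om) (h : 0 < M.law.p ω) (q : Fin (n + 1) × Bool) : 0 < M.κ q.1 ω.1 (ω.2 q) := by
  rcases (M.κ_nonneg q.1 ω.1 (ω.2 q)).lt_or_eq with h1 | h1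
  · exact h1
  · exfalso
    have : M.law.p ω = 0 := by
      show (Fintype.card M.π : ℝ)⁻¹ * ∏ q : Fin (n + 1) × Bool, M.κ q.1 ω.1 (ω.2 q) = 0
      rw [Finset.prod_eq_zero (Finset.mem_univ q) h1.symm, mul_zero]
    linarith

/-- a test `c < h_j(u)` bounds the centred mass -/
theorem tr_bt_h_mass (M : TModel n) (hL : 1 < M.L) (ω : M.Om) (hp : 0 < M.law.p ω) (j : Fin (n + 1)) (u : ℚ) (c : ℝ)
    (h : c < M.xv (TEx.h j u) ω) :
    ∑ T with |M.rat 0 j ω T - M.rat 0 j ω (ω.2 (0, true))| ≤ M.L ^ (-(u : ℝ)), M.κ 0 ω.1 T ≤ M.L ^ (-c) := by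
  set m : ℝ := ∑ T with |M.rat 0 j ω T - M.rat 0 j ω (ω.2 (0, true))| ≤ M.L ^ (-(u : ℝ)), M.κ 0 ω.1 T with hm
  have hL0 : 0 < M.L := by linarith
  have hm0 : 0 < m := by
    have h1 := tr_bt_kappa_pos M ω hp (0, true)
    refine lt_of_lt_of_le h1 ?_
    refine Finset.single_le_sum (f := fun T => M.κ 0 ω.1 T) (fun T _ => M.κ_nonneg _ _ _) ?_
    simp only [Finset.mem_filter, Finset.mem_univ, true_and, sub_self, abs_zero]
    exact (Real.rpow_pos_of_pos hL0 _).le
  have hm1 : m ≤ 1 := by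
    rw [← M.κ_sum 0 ω.1]
    exact Finset.sum_le_sum_of_subset_of_nonneg (Finset.filter_subset _ _) (fun T _ _ => M.κ_nonneg _ _ _)
  rcases lt_or_ge c 0 with hc | hc
  · exact hm1.trans (Real.one_le_rpow hL.le (by linarith))
  · have h' : c < clip01 (- Real.logb M.L m) := h
    unfold clip01 at h'
    have h2 : c < max 0 (- Real.logb M.L m) := lt_of_lt_of_le h' (min_le_right _ _)
    have h3 : c < - Real.logb M.L m := by
      rcases lt_max_iff.1 h2 with h4 | h4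
      · linarith
      · exact h4
    have h4 : Real.logb M.L m < -c := by linarith
    exact ((Real.logb_lt_iff_lt_rpow hL hm0).1 h4).le

/-- **the slope law** (H (t:angular-probability)) for all radii `r ≥ L^{-b}/2` -/
theorem tr_bt_slope (M : TModel n) (hL : 1 < M.L) (j : Fin (n + 1)) (b bs : ℚ) (hb : 0 < b) (κ₀ α : ℝ) (hκ : 0 < κ₀) (hα : 0 ≤ α)
    (N : ℕ) (hN : 1 ≤ N) (E F : M.Om → Prop) (hF : ∀ ω T, F (M.alt ω T) ↔ F ω) (δ : ℝ) (hδ0 : 0 ≤ δ)
    (hE : ∀ ω, E ω → 0 < M.law.p ω ∧ ∀ k : ℕ, 1 ≤ k → k ≤ N →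
      κ₀ * ((b * k / N : ℚ) : ℝ) - α * b < M.xv (TEx.h j (b * k / N)) ω)
    (hδ : ∀ ω, E ω → |M.rat 0 j ω (ω.2 (0, true)) - M.art bs j ω| ≤ δ)
    (z r : ℝ) (hr : M.L ^ (-(b : ℝ)) / 2 ≤ r) :
    M.law.pr (fun ω => E ω ∧ F ω ∧ |M.art bs j ω - z| ≤ r)
      ≤ M.L ^ (α * b + κ₀ * b / N) * (2 * r + 2 * δ) ^ κ₀ * M.law.pr F := by
  have hL0 : 0 < M.L := by linarith
  have hbR : (0 : ℝ) < b := by exact_mod_cast hb
  have hNR : (0 : ℝ) < N := by exact_mod_cast hN
  set r' : ℝ := 2 * r + 2 * δ with hr'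
  have hr'lo : M.L ^ (-(b : ℝ)) ≤ r' := by linarith
  have hr'0 : 0 < r' := lt_of_lt_of_le (Real.rpow_pos_of_pos hL0 _) hr'lo
  have hprF : 0 ≤ M.law.pr F := tr_info_pr_nonneg _ _
  rcases lt_or_ge (M.L ^ (-((b : ℝ) / N))) r' with hbig | hsmall
  · -- trivial bound
    have h1 : M.law.pr (fun ω => E ω ∧ F ω ∧ |M.art bs j ω - z| ≤ r) ≤ M.law.pr F :=
      tr_info_pr_congr _ _ _ (fun ω _ h => h.2.1)
    have h2 : 1 ≤ M.L ^ (α * b + κ₀ * b / N) * r' ^ κ₀ := by
      have h3 : (M.L ^ (-((b : ℝ) / N))) ^ κ₀ ≤ r' ^ κ₀ :=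
        Real.rpow_le_rpow (Real.rpow_pos_of_pos hL0 _).le hbig.le hκ.le
      rw [← Real.rpow_mul hL0.le] at h3
      calc (1 : ℝ) ≤ M.L ^ (α * b) := Real.one_le_rpow hL.le (by positivity)
        _ = M.L ^ (α * b + κ₀ * b / N) * M.L ^ (-((b : ℝ) / N) * κ₀) := by
            rw [← Real.rpow_add hL0]; congr 1; ring
        _ ≤ _ := by gcongr
    calc _ ≤ 1 * M.law.pr F := by rw [one_mul]; exact h1
      _ ≤ _ := by gcongr
  · -- choose the tested radius
    set t : ℝ := - Real.logb M.L r' * N / b with ht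
    have hlog1 : - Real.logb M.L r' ≤ b := by
      have := (Real.le_logb_iff_rpow_le hL hr'0).2 hr'lo
      linarith
    have hlog2 : (b : ℝ) / N ≤ - Real.logb M.L r' := by
      have := (Real.logb_le_iff_le_rpow hL hr'0).2 hsmall
      linarith
    have ht1 : 1 ≤ t := by
      rw [ht, le_div_iff₀ hbR]
      have := mul_le_mul_of_nonneg_right hlog2 hNR.le
      rw [div_mul_cancel₀ _ hNR.ne'] at this
      linarith
    have htN : t ≤ N := by
      rw [ht, div_le_iff₀ hbR]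
      nlinarith
    set k : ℕ := ⌊t⌋₊ with hk
    have hk1 : 1 ≤ k := Nat.le_floor (by exact_mod_cast ht1)
    have hkt : (k : ℝ) ≤ t := Nat.floor_le (by linarith)
    have htk : t < k + 1 := Nat.lt_floor_add_one t
    have hkN : k ≤ N := by
      have : (k : ℝ) ≤ N := hkt.trans htN
      exact_mod_cast this
    have hu : ((b * k / N : ℚ) : ℝ) = b * k / N := by push_cast; ring
    have hrt : r' = M.L ^ (-(t * b / N)) := by
      have : -(t * b / N) = Real.logb M.L r' := by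
        rw [ht]; field_simp
      rw [this, Real.rpow_logb hL0 hL.ne' hr'0]
    have hru : r' ≤ M.L ^ (-((b * k / N : ℚ) : ℝ)) := by
      rw [hrt, hu]
      refine Real.rpow_le_rpow_of_exponent_le hL.le ?_
      have : (b : ℝ) * k / N ≤ t * b / N := by
        rw [mul_comm (b : ℝ)]; gcongr
      linarith
    have h1 := tr_bt_slope_one M j bs E F hF δ r z (M.L ^ (-((b * k / N : ℚ) : ℝ)))
      (M.L ^ (-(κ₀ * ((b * k / N : ℚ) : ℝ) - α * b))) (Real.rpow_pos_of_pos hL0 _).le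
      (fun ω hω => tr_bt_h_mass M hL ω (hE ω hω).1 j _ _ ((hE ω hω).2 k hk1 hkN)) hδ hru
    refine h1.trans ?_
    have h2 : M.L ^ (-(κ₀ * ((b * k / N : ℚ) : ℝ) - α * b)) ≤ M.L ^ (α * b + κ₀ * b / N) * r' ^ κ₀ := by
      rw [hrt, ← Real.rpow_mul hL0.le, ← Real.rpow_add hL0, hu]
      refine Real.rpow_le_rpow_of_exponent_le hL.le ?_
      have e : κ₀ * (t * b / N) ≤ κ₀ * (b * k / N) + κ₀ * b / N := by
        have : t * b / N ≤ (k + 1) * b / N := by gcongr
        calc κ₀ * (t * b / N) ≤ κ₀ * ((k + 1) * b / N) := by gcongr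
          _ = _ := by ring
      nlinarith
    gcongr

end Claimed.Agent.R257.TR
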