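import Claimed.Agent.R257.TR.BT.AbsMain
import Claimed.Agent.R257.TR.BT.Slope
import Claimed.Agent.R257.TR.GeoC

/-!
# R257 / TR / BT / ADefs : the block test data of a model      (architect helper176, post BP-257-TR-BT)

`M.btd d d₀ κ₀ α N j s b bs : BTD` and `M.btp R₀ d d₀ κ₀ α N s b : BTP` : the dictionary between ONE model `M` and the abstract block test (`BT/Defs.lean`).
`Q = L^ε`.  Constants (all of the form `C L^{C ε}`):
* `btA = 2 Q (R₀ + n + 1)`  bounds the coefficients of a (binned or exact) direction in a (binned or exact) reference basis and the inverse of the normalising coefficient;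
* `Λ₁ = Q (n + 2) + 1` range loss, `Λ₂ = btA²` slope bound, `btL3 = 4 n Q btA³ (1 + btA)`: `|a_j/a_0 - ã_j| ≤ btL3 L^{-bs}`.
-/

set_option autoImplicit false

namespace Claimed.Agent.R257.TR

open Claimed.Agent.R255 Claimed.Agent.R257 Claimed.Agent.RW
open scoped BigOperators
open Classical

variable {n : ℕ}

/-- bound of the coefficients -/
noncomputable def TModel.btA (M : TModel n) (R₀ : ℝ) : ℝ := 2 * M.L ^ M.ε * (R₀ + n + 1)

/-- constant of the distance of the exact and the approximate ratio -/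
noncomputable def TModel.btL3 (M : TModel n) (R₀ : ℝ) : ℝ := 4 * n * M.L ^ M.ε * M.btA R₀ ^ 3 * (1 + M.btA R₀)

/-- the block test data of a model -/
noncomputable def TModel.btd (M : TModel n) (d d₀ κ₀ α : ℝ) (N : ℕ) (j : Fin (n + 1)) (s b bs : ℚ) : BTD where
  Ω := M.Om
  fΩ := inferInstance
  P := M.law
  φ := ((Fin n → ℤ) × ℤ) × (Fin (n + 1) → Fin n → ℤ)
  A := Fin n → ℤ
  Φ := fun ω => (cellL (sc M.L s) (M.pos ω.1), fun i => binL (sc M.L bs) (M.fr i (ω.2 (i, false))))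
  a := fun ω => binL (sc M.L bs) (M.fr 0 (ω.2 (0, true)))
  y0 := fun ω => ⌊(2 : ℝ) ^ (sc M.L (s + b)) * M.gc (rf0 n) bs ω 0⌋
  yj := fun ω => ⌊(2 : ℝ) ^ (sc M.L (s + b)) * M.gc (rf0 n) bs ω j⌋
  pi := fun ω => ⌊(2 : ℝ) ^ (sc M.L (s + b)) * (M.gc (rf0 n) bs ω j - M.art bs j ω * M.gc (rf0 n) bs ω 0)⌋
  z := fun k ω => ⌊(2 : ℝ) ^ (sc M.L (s + b * k / N)) * M.gc (rf0 n) bs ω 0⌋
  sl := fun ω => M.art bs j ω
  S := fun ω => M.sys.vec ω ∈ UBT d d₀ κ₀ α N j s b bs ∧ 0 < M.law.p ω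

/-- the parameters -/
noncomputable def TModel.btp (M : TModel n) (R₀ d d₀ κ₀ α : ℝ) (N : ℕ) (s b : ℚ) : BTP where
  d := d
  d₀ := d₀
  κ₀ := κ₀
  α := α
  N := N
  K := M.L ^ (b : ℝ)
  W := (2 : ℝ) ^ (sc M.L (s + b)) * ((2 : ℝ) ^ (sc M.L s))⁻¹
  Λ₁ := M.L ^ M.ε * (n + 2) + 1
  Λ₂ := M.btA R₀ ^ 2
  Cν := (M.L ^ (b : ℝ)) ^ (α + κ₀ / N) * (2 * (M.L ^ M.ε * (n + 2) + 1) * (1 + 2 * M.btL3 R₀)) ^ κ₀
  e := fun k => (2 : ℝ) ^ (sc M.L (s + b)) * ((2 : ℝ) ^ (sc M.L (s + b * k / N)))⁻¹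

/-- Stores the on-demand equation lemmas of the definitions above in THIS module (rule 6 hygiene). -/
theorem tr_bt_adefs_forced : True := by
  have := @TModel.btA.eq_1
  have := @TModel.btL3.eq_1
  have := @TModel.btd.eq_1
  have := @TModel.btp.eq_1
  trivial

end Claimed.Agent.R257.TR
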