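import Claimed.Agent.R257.TR.BT.ADefs

/-!
# R257 / TR / BT / AGeo : geometry of the labels of the block test      (architect helper176)      PAPER-FREE leaves

Everything follows from the shared API `TR/GeoA.lean`, `TR/GeoB.lean`, `TR/GeoC.lean` (cite it even where it is still sorried).
`hs : 4 n L^ε ≤ L^{bs}` is the smallness condition of that API.
-/

set_option autoImplicit false

namespace Claimed.Agent.R257.TR

open Claimed.Agent.R255 Claimed.Agent.R257 Claimed.Agent.RW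
open scoped BigOperators
open Classical

variable {n : ℕ} {M : TModel n} {R₀ c₁ Cτ : ℝ}

/-! ### floors and levels (no model) -/

/-- LEAF FL1.  `yj - sl y0 - pi = - frac Aj + sl frac A0 + frac (Aj - sl A0)`. -/
theorem tr_bt_floor_pi (A0 Aj sl Λ : ℝ) (h : |sl| ≤ Λ) : |(⌊Aj⌋ : ℝ) - sl * ⌊A0⌋ - ⌊Aj - sl * A0⌋| ≤ 1 + Λ := by
  have e : (⌊Aj⌋ : ℝ) - sl * ⌊A0⌋ - ⌊Aj - sl * A0⌋ = (Int.fract (Aj - sl * A0) - Int.fract Aj) + sl * Int.fract A0 := by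
    simp only [Int.fract]
    ring
  rw [e]
  have h1 := Int.fract_nonneg Aj
  have h2 := Int.fract_lt_one Aj
  have h3 := Int.fract_nonneg (Aj - sl * A0)
  have h4 := Int.fract_lt_one (Aj - sl * A0)
  have h5 := Int.fract_nonneg A0
  have h6 := Int.fract_lt_one A0
  have t1 : |Int.fract (Aj - sl * A0) - Int.fract Aj| ≤ 1 := by
    rw [abs_le]
    constructor <;> linarith
  have t2 : |sl * Int.fract A0| ≤ Λ := by
    rw [abs_mul, abs_of_nonneg h5]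
    calc |sl| * Int.fract A0 ≤ |sl| * 1 := mul_le_mul_of_nonneg_left h6.le (abs_nonneg _)
      _ ≤ Λ := by linarith
  exact (abs_add_le _ _).trans (by linarith)

/-- LEAF FL2.  `e = 2^{k'-k}` is an integer: `z ≤ 2^k g < z + 1` gives `z e ≤ 2^{k'} g < (z+1) e`, and `z e` is an integer (`Int.le_floor`). -/
theorem tr_bt_floor_nest (k k' : ℕ) (h : k ≤ k') (g : ℝ) :
    (⌊(2 : ℝ) ^ k * g⌋ : ℝ) * ((2 : ℝ) ^ k' * ((2 : ℝ) ^ k)⁻¹) ≤ ⌊(2 : ℝ) ^ k' * g⌋ ∧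
      (⌊(2 : ℝ) ^ k' * g⌋ : ℝ) < ((⌊(2 : ℝ) ^ k * g⌋ : ℝ) + 1) * ((2 : ℝ) ^ k' * ((2 : ℝ) ^ k)⁻¹) := by
  obtain ⟨d, rfl⟩ := Nat.exists_eq_add_of_le h
  have e : (2 : ℝ) ^ (k + d) * ((2 : ℝ) ^ k)⁻¹ = 2 ^ d := by
    rw [pow_add]
    field_simp
  rw [e]
  have hd : (0 : ℝ) < 2 ^ d := by positivity
  have e2 : (2 : ℝ) ^ (k + d) * g = (2 ^ k * g) * 2 ^ d := by
    rw [pow_add]
    ring
  constructor
  · have : (⌊(2 : ℝ) ^ k * g⌋ * 2 ^ d : ℤ) ≤ ⌊(2 : ℝ) ^ (k + d) * g⌋ := by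
      rw [Int.le_floor]
      push_cast
      rw [e2]
      exact mul_le_mul_of_nonneg_right (Int.floor_le _) hd.le
    exact_mod_cast this
  · calc (⌊(2 : ℝ) ^ (k + d) * g⌋ : ℝ) ≤ 2 ^ (k + d) * g := Int.floor_le _
      _ = (2 ^ k * g) * 2 ^ d := e2
      _ < ((⌊(2 : ℝ) ^ k * g⌋ : ℝ) + 1) * 2 ^ d := mul_lt_mul_of_pos_right (Int.lt_floor_add_one _) hd

/-- LEAF FL3.  `tr_geo_sc_lt` for `s'`, `tr_geo_sc_le` for `s`. -/
theorem tr_bt_sc_lo (L : ℝ) (hL : 2 ≤ L) (s s' : ℚ) (hs : 0 ≤ s) :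
    L ^ ((s' : ℝ) - s) / 2 ≤ (2 : ℝ) ^ (sc L s') * ((2 : ℝ) ^ (sc L s))⁻¹ := by
  have hL0 : 0 < L := by linarith
  have h1 := tr_geo_sc_lt L hL s'
  have h2 := tr_geo_sc_inv_ge L hL s hs
  have h3 : 0 < L ^ (-(s : ℝ)) := Real.rpow_pos_of_pos hL0 _
  rw [pow_succ] at h1
  calc L ^ ((s' : ℝ) - s) / 2 = (L ^ (s' : ℝ) / 2) * L ^ (-(s : ℝ)) := by
        rw [sub_eq_add_neg, Real.rpow_add hL0]
        ring
    _ ≤ (2 : ℝ) ^ (sc L s') * ((2 : ℝ) ^ (sc L s))⁻¹ :=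
        mul_le_mul (by linarith) h2 h3.le (by positivity)

/-- LEAF FL4.  `tr_geo_sc_mono`. -/
theorem tr_bt_sc_one (L : ℝ) (hL : 2 ≤ L) (s s' : ℚ) (h : s ≤ s') : 1 ≤ (2 : ℝ) ^ (sc L s') * ((2 : ℝ) ^ (sc L s))⁻¹ := by
  have h1 : (2 : ℝ) ^ (sc L s) ≤ (2 : ℝ) ^ (sc L s') := pow_le_pow_right₀ (by norm_num) (tr_geo_sc_mono L hL s s' h)
  have h2 : (0 : ℝ) < (2 : ℝ) ^ (sc L s) := by positivity
  rw [← div_eq_mul_inv, le_div_iff₀ h2]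
  linarith

/-! ### coefficients of the alternative direction -/

theorem tr_bt_btA_ge (hM : M.Ok R₀ c₁ Cτ) : 2 ≤ M.btA R₀ := by
  have h1 := tr_geo_one_le_Q hM
  have h2 := tr_geo_R_nonneg hM
  have h3 : (0 : ℝ) ≤ n := Nat.cast_nonneg n
  unfold TModel.btA
  nlinarith

/-- LEAF CO1 (binned basis, binned direction).  `tr_geo_trv_rbin`, `tr_geo_coord_bound`, `tr_geo_binR_norm`, `hM.fr_bd`; `tr_geo_repl_low` with `tr_geo_trv_rbin_updb`, `tr_geo_rbin_norm`. -/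
theorem tr_bt_coef_bin (hM : M.Ok R₀ c₁ Cτ) (bs : ℚ) (hs : 4 * (n : ℝ) * M.L ^ M.ε ≤ M.L ^ (bs : ℝ)) (ω : M.Om) :
    ∑ i, |coord (M.rbin (rf0 n) bs ω) (vdir (binR (sc M.L bs) (M.fr 0 (ω.2 (0, true))))) i| ≤ M.btA R₀ ∧
      1 ≤ M.btA R₀ * |coord (M.rbin (rf0 n) bs ω) (vdir (binR (sc M.L bs) (M.fr 0 (ω.2 (0, true))))) 0| := by
  have hQ := tr_geo_one_le_Q hM
  have hT := tr_geo_trv_rbin hM bs hs (rf0 n) ω
  have hn : ‖binR (sc M.L bs) (M.fr 0 (ω.2 (0, true)))‖ ≤ R₀ + n :=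
    (tr_geo_binR_norm _ _).trans (by linarith [hM.fr_bd 0 (ω.2 (0, true))])
  constructor
  · refine (tr_geo_coord_bound _ _ hT _).trans ?_
    have e : ‖(vdir (binR (sc M.L bs) (M.fr 0 (ω.2 (0, true))))).1‖ / 2 + |(vdir (binR (sc M.L bs) (M.fr 0 (ω.2 (0, true))))).2|
        = ‖binR (sc M.L bs) (M.fr 0 (ω.2 (0, true)))‖ + 1 := by
      unfold vdir
      simp only [norm_smul, Real.norm_eq_abs, abs_two, abs_one]
      ring
    rw [e]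
    unfold TModel.btA
    have : 0 ≤ 2 * M.L ^ M.ε := by linarith
    exact mul_le_mul_of_nonneg_left (by linarith) this
  · have := tr_geo_repl_low (2 * M.L ^ M.ε) (R₀ + n) (M.rbin (rf0 n) bs ω) 0 (binR (sc M.L bs) (M.fr 0 (ω.2 (0, true)))) hT
      (tr_geo_trv_rbin_updb hM bs hs (rf0 n) ω 0 (ω.2 (0, true))) (tr_geo_rbin_norm hM (rf0 n) bs ω 0)
    exact this

/-- LEAF CO2 (exact basis, exact direction).  `tr_geo_trv_rfr`, `tr_geo_coord_bound`, `tr_geo_repl_low` with `tr_geo_trv_rfr_upd`. -/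
theorem tr_bt_coef_ex (hM : M.Ok R₀ c₁ Cτ) (ω : M.Om) (T : M.τ) :
    ∑ i, |coord (M.rfr (rf0 n) ω) (vdir (M.fr 0 T)) i| ≤ M.btA R₀ ∧
      1 ≤ M.btA R₀ * |coord (M.rfr (rf0 n) ω) (vdir (M.fr 0 T)) 0| := by
  have hQ := tr_geo_one_le_Q hM
  have hR := tr_geo_R_nonneg hM
  have hn0 : (0 : ℝ) ≤ n := Nat.cast_nonneg n
  have hT := tr_geo_trv_rfr hM (rf0 n) ω
  have hle : M.L ^ M.ε * (R₀ + 1) ≤ M.btA R₀ := by
    unfold TModel.btA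
    nlinarith
  constructor
  · refine (tr_geo_coord_bound _ _ hT _).trans ?_
    have e : ‖(vdir (M.fr 0 T)).1‖ / 2 + |(vdir (M.fr 0 T)).2| = ‖M.fr 0 T‖ + 1 := by
      unfold vdir
      simp only [norm_smul, Real.norm_eq_abs, abs_two, abs_one]
      ring
    rw [e]
    refine le_trans ?_ hle
    exact mul_le_mul_of_nonneg_left (by linarith [hM.fr_bd 0 T]) (by linarith)
  · have := tr_geo_repl_low (M.L ^ M.ε) R₀ (M.rfr (rf0 n) ω) 0 (M.fr 0 T) hT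
      (tr_geo_trv_rfr_upd hM (rf0 n) ω 0 T) (hM.fr_bd 0 _)
    exact this.trans (mul_le_mul_of_nonneg_right hle (abs_nonneg _))

/-- LEAF CO3.  `‖ũ - u‖₁ ≤ ‖coord ξ̃ (vdir ζ̃ - vdir ζ)‖₁ + ‖coord ξ̃ (vdir ζ) - coord ξ (vdir ζ)‖₁ ≤ 2Q δ + 2Q δ ‖u‖₁`, `δ = 2 n L^{-bs}`
(`tr_geo_coord_sub`, `tr_geo_coord_bound`, `tr_geo_coord_perturb` with the constant `2Q` for both bases, `tr_geo_rbin_dist`, `tr_geo_binR_dist`, `tr_geo_sc_inv_le`). -/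
theorem tr_bt_coef_diff (hM : M.Ok R₀ c₁ Cτ) (bs : ℚ) (hs : 4 * (n : ℝ) * M.L ^ M.ε ≤ M.L ^ (bs : ℝ)) (ω : M.Om) :
    ∑ i, |coord (M.rbin (rf0 n) bs ω) (vdir (binR (sc M.L bs) (M.fr 0 (ω.2 (0, true))))) i
        - coord (M.rfr (rf0 n) ω) (vdir (M.fr 0 (ω.2 (0, true)))) i|
      ≤ 4 * n * M.L ^ M.ε * (1 + M.btA R₀) * M.L ^ (-(bs : ℝ)) := by
  have hQ := tr_geo_one_le_Q hM
  have hL0 := tr_geo_L_pos hM
  have hn0 : (0 : ℝ) ≤ n := Nat.cast_nonneg n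
  have hT := tr_geo_trv_rbin hM bs hs (rf0 n) ω
  have hT' : Trv (2 * M.L ^ M.ε) (M.rfr (rf0 n) ω) :=
    tr_geo_trv_mono _ _ _ (tr_geo_trv_rfr hM (rf0 n) ω) (by linarith)
  obtain ⟨e1, -⟩ := tr_bt_coef_ex hM ω (ω.2 (0, true))
  set ζb := binR (sc M.L bs) (M.fr 0 (ω.2 (0, true))) with hζb
  set ζ := M.fr 0 (ω.2 (0, true)) with hζ
  set δ := 2 * n * M.L ^ (-(bs : ℝ)) with hδ
  have hδ0 : 0 ≤ δ := by positivity
  have hd : ‖ζb - ζ‖ ≤ δ := by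
    calc ‖ζb - ζ‖ ≤ n * ((2 : ℝ) ^ (sc M.L bs))⁻¹ := tr_geo_binR_dist _ _
      _ ≤ n * (2 * M.L ^ (-(bs : ℝ))) := mul_le_mul_of_nonneg_left (tr_geo_sc_inv_le M.L hM.L_ge bs) hn0
      _ = δ := by rw [hδ]; ring
  have p1 : ∑ i, |coord (M.rbin (rf0 n) bs ω) (vdir ζb - vdir ζ) i| ≤ 2 * M.L ^ M.ε * δ := by
    refine (tr_geo_coord_bound _ _ hT _).trans ?_
    have e : ‖(vdir ζb - vdir ζ).1‖ / 2 + |(vdir ζb - vdir ζ).2| = ‖ζb - ζ‖ := by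
      unfold vdir
      simp only [Prod.fst_sub, Prod.snd_sub, sub_self, abs_zero, add_zero, ← smul_sub, norm_smul, Real.norm_eq_abs, abs_two]
      ring
    rw [e]
    exact mul_le_mul_of_nonneg_left hd (by linarith)
  have p2 := tr_geo_coord_perturb (2 * M.L ^ M.ε) δ (M.rfr (rf0 n) ω) (M.rbin (rf0 n) bs ω) hT' hT
    (fun i => tr_geo_rbin_dist hM (rf0 n) bs ω i) (vdir ζ)
  have p3 : 2 * M.L ^ M.ε * δ * ∑ i, |coord (M.rfr (rf0 n) ω) (vdir ζ) i| ≤ 2 * M.L ^ M.ε * δ * M.btA R₀ :=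
    mul_le_mul_of_nonneg_left e1 (by positivity)
  have hsub := tr_geo_coord_sub _ _ hT (vdir ζb) (vdir ζ)
  calc ∑ i, |coord (M.rbin (rf0 n) bs ω) (vdir ζb) i - coord (M.rfr (rf0 n) ω) (vdir ζ) i|
      ≤ ∑ i, (|coord (M.rbin (rf0 n) bs ω) (vdir ζb - vdir ζ) i|
          + |coord (M.rbin (rf0 n) bs ω) (vdir ζ) i - coord (M.rfr (rf0 n) ω) (vdir ζ) i|) := by
        refine Finset.sum_le_sum fun i _ => ?_
        rw [hsub]
        refine le_trans (le_of_eq ?_) (abs_add_le _ _)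
        congr 1
        simp only [Pi.sub_apply]
        ring
    _ ≤ 2 * M.L ^ M.ε * δ + 2 * M.L ^ M.ε * δ * M.btA R₀ := by
        rw [Finset.sum_add_distrib]
        exact add_le_add p1 (p2.trans p3)
    _ = 4 * n * M.L ^ M.ε * (1 + M.btA R₀) * M.L ^ (-(bs : ℝ)) := by
        rw [hδ]
        ring

/-- LEAF CO4 (real numbers).  `u_j/u_0 - v_j/v_0 = (u_j (v_0 - u_0) + u_0 (u_j - v_j)) / (u_0 v_0)`. -/
theorem tr_bt_ratio_diff (A η u0 uj v0 vj : ℝ) (hA : 0 ≤ A) (hu0 : |u0| ≤ A) (huj : |uj| ≤ A) (h0 : 1 ≤ A * |u0|) (h0' : 1 ≤ A * |v0|)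
    (hd : |v0 - u0| + |vj - uj| ≤ η) : |uj / u0 - vj / v0| ≤ A ^ 3 * η := by
  have hu : 0 < |u0| := by
    by_contra hcon
    have : |u0| = 0 := le_antisymm (not_lt.1 hcon) (abs_nonneg _)
    rw [this] at h0
    linarith
  have hv : 0 < |v0| := by
    by_contra hcon
    have : |v0| = 0 := le_antisymm (not_lt.1 hcon) (abs_nonneg _)
    rw [this] at h0'
    linarith
  have hu' : u0 ≠ 0 := abs_pos.1 hu
  have hv' : v0 ≠ 0 := abs_pos.1 hv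
  have hη : 0 ≤ η := le_trans (add_nonneg (abs_nonneg _) (abs_nonneg _)) hd
  have e : uj / u0 - vj / v0 = (uj * (v0 - u0) + u0 * (uj - vj)) / (u0 * v0) := by
    field_simp
    ring
  rw [e, abs_div, abs_mul u0 v0, div_le_iff₀ (mul_pos hu hv)]
  have h1 : |uj * (v0 - u0) + u0 * (uj - vj)| ≤ A * η := by
    refine (abs_add_le _ _).trans ?_
    rw [abs_mul, abs_mul, abs_sub_comm uj vj]
    have t1 := mul_le_mul_of_nonneg_right huj (abs_nonneg (v0 - u0))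
    have t2 := mul_le_mul_of_nonneg_right hu0 (abs_nonneg (vj - uj))
    have t3 := mul_le_mul_of_nonneg_left hd hA
    linarith
  have h2 : 1 ≤ (A * |u0|) * (A * |v0|) := by
    calc (1 : ℝ) = 1 * 1 := (one_mul 1).symm
      _ ≤ (A * |u0|) * (A * |v0|) := mul_le_mul h0 h0' zero_le_one (by positivity)
  calc |uj * (v0 - u0) + u0 * (uj - vj)| ≤ A * η * 1 := by linarith
    _ ≤ A * η * ((A * |u0|) * (A * |v0|)) := mul_le_mul_of_nonneg_left h2 (by positivity)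
    _ = A ^ 3 * η * (|u0| * |v0|) := by ring

/-- the slope bound -/
theorem tr_bt_art_bd (hM : M.Ok R₀ c₁ Cτ) (bs : ℚ) (hs : 4 * (n : ℝ) * M.L ^ M.ε ≤ M.L ^ (bs : ℝ)) (j : Fin (n + 1)) (ω : M.Om) :
    |M.art bs j ω| ≤ M.btA R₀ ^ 2 := by
  obtain ⟨h1, h2⟩ := tr_bt_coef_bin hM bs hs ω
  have hA : 0 < M.btA R₀ := by linarith [tr_bt_btA_ge hM]
  unfold TModel.art
  set u := coord (M.rbin (rf0 n) bs ω) (vdir (binR (sc M.L bs) (M.fr 0 (ω.2 (0, true))))) with hu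
  have hj : |u j| ≤ M.btA R₀ := le_trans (Finset.single_le_sum (f := fun i => |u i|) (fun i _ => abs_nonneg _) (Finset.mem_univ j)) h1
  have h0 : 0 < |u 0| := by
    by_contra hcon
    have : |u 0| = 0 := le_antisymm (not_lt.1 hcon) (abs_nonneg _)
    rw [this] at h2
    linarith
  rw [abs_div, div_le_iff₀ h0]
  calc |u j| ≤ M.btA R₀ * 1 := by linarith
    _ ≤ M.btA R₀ * (M.btA R₀ * |u 0|) := by gcongr
    _ = M.btA R₀ ^ 2 * |u 0| := by ring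

/-- distance of the exact and the approximate ratio -/
theorem tr_bt_rat_art (hM : M.Ok R₀ c₁ Cτ) (bs : ℚ) (hs : 4 * (n : ℝ) * M.L ^ M.ε ≤ M.L ^ (bs : ℝ)) (j : Fin (n + 1)) (hj : j ≠ 0) (ω : M.Om) :
    |M.rat 0 j ω (ω.2 (0, true)) - M.art bs j ω| ≤ M.btL3 R₀ * M.L ^ (-(bs : ℝ)) := by
  obtain ⟨-, h2⟩ := tr_bt_coef_bin hM bs hs ω
  obtain ⟨e1, e2⟩ := tr_bt_coef_ex hM ω (ω.2 (0, true))
  have hd := tr_bt_coef_diff hM bs hs ω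
  have hA : 0 < M.btA R₀ := by linarith [tr_bt_btA_ge hM]
  unfold TModel.art TModel.rat
  set v := coord (M.rbin (rf0 n) bs ω) (vdir (binR (sc M.L bs) (M.fr 0 (ω.2 (0, true))))) with hv
  set u := coord (M.rfr (rf0 n) ω) (vdir (M.fr 0 (ω.2 (0, true)))) with hu
  have hone : ∀ i, |u i| ≤ M.btA R₀ := fun i =>
    le_trans (Finset.single_le_sum (f := fun i => |u i|) (fun i _ => abs_nonneg _) (Finset.mem_univ i)) e1
  have hpair : |v 0 - u 0| + |v j - u j| ≤ ∑ i, |v i - u i| := by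
    have := Finset.sum_le_sum_of_subset_of_nonneg (f := fun i => |v i - u i|) (Finset.subset_univ {0, j}) (fun i _ _ => abs_nonneg _)
    rwa [Finset.sum_pair (Ne.symm hj)] at this
  have := tr_bt_ratio_diff (M.btA R₀) _ (u 0) (u j) (v 0) (v j) hA.le (hone 0) (hone j) e2 h2 (hpair.trans hd)
  refine this.trans (le_of_eq ?_)
  unfold TModel.btL3
  ring

/-- floors of two reals -/
theorem tr_bt_rng_fl (x y : ℝ) : |(⌊x⌋ : ℝ) - ⌊y⌋| ≤ |x - y| + 1 := by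
  have h1 := Int.floor_le x
  have h2 := Int.lt_floor_add_one x
  have h3 := Int.floor_le y
  have h4 := Int.lt_floor_add_one y
  have h5 := le_abs_self (x - y)
  have h6 := neg_abs_le (x - y)
  rw [abs_le]
  constructor <;> linarith

/-- LEAF RNG.  Same basis `ξ̃` (`tr_geo_binR_congr`), `gc ω - gc ω' = coord ξ̃ (pos - pos')` (`tr_geo_coord_sub`), `tr_geo_coord_bound_one` with `2Q`, `tr_geo_cell_close`:
`|Δ gc_i| ≤ 2Q (n/2 + 1) 2^{-k_s}`; floors differ by at most `|Δ| + 1`; `1 ≤ W` (`tr_bt_sc_one`). -/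
theorem tr_bt_rng (hM : M.Ok R₀ c₁ Cτ) (bs s r : ℚ) (hs : 4 * (n : ℝ) * M.L ^ M.ε ≤ M.L ^ (bs : ℝ)) (hsr : s ≤ r) (ω ω' : M.Om)
    (hc : cellL (sc M.L s) (M.pos ω.1) = cellL (sc M.L s) (M.pos ω'.1))
    (hb : ∀ i, binL (sc M.L bs) (M.fr i (ω.2 (i, false))) = binL (sc M.L bs) (M.fr i (ω'.2 (i, false)))) (i : Fin (n + 1)) :
    |(⌊(2 : ℝ) ^ (sc M.L r) * M.gc (rf0 n) bs ω i⌋ : ℝ) - ⌊(2 : ℝ) ^ (sc M.L r) * M.gc (rf0 n) bs ω' i⌋|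
      ≤ (M.L ^ M.ε * (n + 2) + 1) * ((2 : ℝ) ^ (sc M.L r) * ((2 : ℝ) ^ (sc M.L s))⁻¹) := by
  have hQ := tr_geo_one_le_Q hM
  have hn0 : (0 : ℝ) ≤ n := Nat.cast_nonneg n
  have hT := tr_geo_trv_rbin hM bs hs (rf0 n) ω
  have hbas : M.rbin (rf0 n) bs ω' = M.rbin (rf0 n) bs ω := by
    funext i
    exact (tr_geo_binR_congr _ _ _ (hb i)).symm
  obtain ⟨-, c2, c3⟩ := tr_geo_cell_close _ _ _ hc
  have hW := tr_bt_sc_one M.L hM.L_ge s r hsr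
  have hk : (0 : ℝ) < (2 : ℝ) ^ (sc M.L r) := by positivity
  have hd : |M.gc (rf0 n) bs ω i - M.gc (rf0 n) bs ω' i| ≤ M.L ^ M.ε * (n + 2) * ((2 : ℝ) ^ (sc M.L s))⁻¹ := by
    unfold TModel.gc
    rw [hbas]
    have e : coord (M.rbin (rf0 n) bs ω) (M.pos ω.1) i - coord (M.rbin (rf0 n) bs ω) (M.pos ω'.1) i
        = coord (M.rbin (rf0 n) bs ω) (M.pos ω.1 - M.pos ω'.1) i := by
      rw [tr_geo_coord_sub _ _ hT]
      rfl
    rw [e]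
    refine (tr_geo_coord_bound_one _ _ hT _ i).trans ?_
    have : ‖(M.pos ω.1 - M.pos ω'.1).1‖ / 2 + |(M.pos ω.1 - M.pos ω'.1).2| ≤ (n / 2 + 1) * ((2 : ℝ) ^ (sc M.L s))⁻¹ := by
      simp only [Prod.fst_sub, Prod.snd_sub]
      linarith
    calc 2 * M.L ^ M.ε * (‖(M.pos ω.1 - M.pos ω'.1).1‖ / 2 + |(M.pos ω.1 - M.pos ω'.1).2|)
        ≤ 2 * M.L ^ M.ε * ((n / 2 + 1) * ((2 : ℝ) ^ (sc M.L s))⁻¹) := mul_le_mul_of_nonneg_left this (by linarith)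
      _ = M.L ^ M.ε * (n + 2) * ((2 : ℝ) ^ (sc M.L s))⁻¹ := by ring
  refine (tr_bt_rng_fl _ _).trans ?_
  rw [← mul_sub, abs_mul, abs_of_pos hk]
  have h1 := mul_le_mul_of_nonneg_left hd hk.le
  calc (2 : ℝ) ^ (sc M.L r) * |M.gc (rf0 n) bs ω i - M.gc (rf0 n) bs ω' i| + 1
      ≤ (2 : ℝ) ^ (sc M.L r) * (M.L ^ M.ε * (n + 2) * ((2 : ℝ) ^ (sc M.L s))⁻¹) + (2 : ℝ) ^ (sc M.L r) * ((2 : ℝ) ^ (sc M.L s))⁻¹ := by
        linarith
    _ = (M.L ^ M.ε * (n + 2) + 1) * ((2 : ℝ) ^ (sc M.L r) * ((2 : ℝ) ^ (sc M.L s))⁻¹) := by ring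

/-- the approximate slope is a function of the bins -/
theorem tr_bt_art_congr (M : TModel n) (bs : ℚ) (j : Fin (n + 1)) (ω ω' : M.Om)
    (hb : ∀ i, binL (sc M.L bs) (M.fr i (ω.2 (i, false))) = binL (sc M.L bs) (M.fr i (ω'.2 (i, false))))
    (ha : binL (sc M.L bs) (M.fr 0 (ω.2 (0, true))) = binL (sc M.L bs) (M.fr 0 (ω'.2 (0, true)))) :
    M.art bs j ω = M.art bs j ω' := by
  have h1 : M.rbin (rf0 n) bs ω = M.rbin (rf0 n) bs ω' := by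
    funext i
    exact tr_geo_binR_congr _ _ _ (hb i)
  unfold TModel.art
  rw [h1, tr_geo_binR_congr _ _ _ ha]

end Claimed.Agent.R257.TR
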