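import Claimed.Agent.R257.TR.BT.ADefs

/-!
# R257 / TR / BT / AMass : the informations of `UBT` as mass inequalities (H (t:fiber-masses))      (architect helper176)      PAPER-FREE leaves

`cI (vec ω) A B = I0 (A ∪ B) ω - I0 B ω = - log_L (ms (A ∪ B) ω / ms B ω)`; `ms A ω = P(agreement with ω on the names of A)` (`tr_geo_ms_eq`).
-/

set_option autoImplicit false

namespace Claimed.Agent.R257.TR

open Claimed.Agent.R255 Claimed.Agent.R257 Claimed.Agent.RW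
open scoped BigOperators
open Classical

variable {Nm Ex : Type}

/-- the conditional information in terms of the masses -/
theorem tr_bt_cI_eq (S : ISys Nm Ex) (ω : S.Ω) (A B : Finset Nm) :
    cI (S.vec ω) A B = Real.logb S.L (S.ms B ω) - Real.logb S.L (S.ms (A ∪ B) ω) := by
  unfold cI ISys.vec ISys.I0
  simp only [Sum.elim_inl]
  ring

/-- LEAF MS1.  `ms > 0` at points of positive mass (`tr_info_fib_pos`); `Real.logb_lt_iff_lt_rpow`, `Real.logb_div` or direct: `logb (ms B) - logb (ms (A ∪ B)) < t`. -/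
theorem tr_bt_cI_lt (S : ISys Nm Ex) (hL : 1 < S.L) (ω : S.Ω) (hp : 0 < S.P.p ω) (A B : Finset Nm) (t : ℝ) (h : cI (S.vec ω) A B < t) :
    S.L ^ (-t) * S.ms B ω ≤ S.ms (A ∪ B) ω := by
  have hL0 : 0 < S.L := by linarith
  have ha : 0 < S.ms (A ∪ B) ω := tr_info_fib_pos S.P _ ω hp
  have hb : 0 < S.ms B ω := tr_info_fib_pos S.P _ ω hp
  rw [tr_bt_cI_eq] at h
  calc S.L ^ (-t) * S.ms B ω = S.L ^ (-t) * S.L ^ (Real.logb S.L (S.ms B ω)) := by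
        rw [Real.rpow_logb hL0 hL.ne' hb]
    _ = S.L ^ (-t + Real.logb S.L (S.ms B ω)) := (Real.rpow_add hL0 _ _).symm
    _ ≤ S.L ^ (Real.logb S.L (S.ms (A ∪ B) ω)) := Real.rpow_le_rpow_of_exponent_le hL.le (by linarith)
    _ = S.ms (A ∪ B) ω := Real.rpow_logb hL0 hL.ne' ha

/-- LEAF MS2. -/
theorem tr_bt_lt_cI (S : ISys Nm Ex) (hL : 1 < S.L) (ω : S.Ω) (hp : 0 < S.P.p ω) (A B : Finset Nm) (t : ℝ) (h : t < cI (S.vec ω) A B) :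
    S.ms (A ∪ B) ω ≤ S.L ^ (-t) * S.ms B ω := by
  have hL0 : 0 < S.L := by linarith
  have ha : 0 < S.ms (A ∪ B) ω := tr_info_fib_pos S.P _ ω hp
  have hb : 0 < S.ms B ω := tr_info_fib_pos S.P _ ω hp
  rw [tr_bt_cI_eq] at h
  calc S.ms (A ∪ B) ω = S.L ^ (Real.logb S.L (S.ms (A ∪ B) ω)) := (Real.rpow_logb hL0 hL.ne' ha).symm
    _ ≤ S.L ^ (-t + Real.logb S.L (S.ms B ω)) := Real.rpow_le_rpow_of_exponent_le hL.le (by linarith)
    _ = S.L ^ (-t) * S.L ^ (Real.logb S.L (S.ms B ω)) := Real.rpow_add hL0 _ _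
    _ = S.L ^ (-t) * S.ms B ω := by rw [Real.rpow_logb hL0 hL.ne' hb]

variable {n : ℕ}

/-- LEAF AG1.  (`nD0 = image`, `Finset.forall_mem_image`; `M.sys.ob (TNm.B i β bs) ω = binL …` is `rfl`.) -/
theorem tr_bt_agr_nD0 (M : TModel n) (bs : ℚ) (ω ω' : M.Om) :
    M.sys.Agr (nD0 (rf0 n) bs) ω ω' ↔
      ∀ i, binL (sc M.L bs) (M.fr i (ω.2 (i, false))) = binL (sc M.L bs) (M.fr i (ω'.2 (i, false))) := by
  constructor
  · intro h i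
    exact h (TNm.B i (rf0 n i) bs) (Finset.mem_image_of_mem _ (Finset.mem_univ i))
  · intro h a ha
    obtain ⟨i, -, rfl⟩ := Finset.mem_image.1 ha
    exact h i

/-- the fibre label -/
theorem tr_bt_agr_F (M : TModel n) (d d₀ κ₀ α : ℝ) (N : ℕ) (j : Fin (n + 1)) (s b bs : ℚ) (ω ω' : M.Om) :
    M.sys.Agr ({TNm.X s} ∪ nD0 (rf0 n) bs) ω ω' ↔ (M.btd d d₀ κ₀ α N j s b bs).Φ ω = (M.btd d d₀ κ₀ α N j s b bs).Φ ω' := by
  refine (tr_agr_union M.sys _ _ ω ω').trans (((tr_geo_agr_X M s ω ω').and (tr_bt_agr_nD0 M bs ω ω')).trans ?_)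
  show _ ↔ ((cellL (sc M.L s) (M.pos ω.1), fun i => binL (sc M.L bs) (M.fr i (ω.2 (i, false)))) :
      ((Fin n → ℤ) × ℤ) × (Fin (n + 1) → Fin n → ℤ)) = (cellL (sc M.L s) (M.pos ω'.1), fun i => binL (sc M.L bs) (M.fr i (ω'.2 (i, false))))
  constructor
  · rintro ⟨h1, h2⟩
    exact Prod.ext h1 (funext h2)
  · intro h
    exact ⟨congrArg Prod.fst h, fun i => congrFun (congrArg Prod.snd h) i⟩

/-- the fibre label and the alternative bin -/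
theorem tr_bt_agr_Fa (M : TModel n) (d d₀ κ₀ α : ℝ) (N : ℕ) (j : Fin (n + 1)) (s b bs : ℚ) (ω ω' : M.Om) :
    M.sys.Agr ({TNm.X s} ∪ nD1 n bs) ω ω' ↔ (M.btd d d₀ κ₀ α N j s b bs).Φ ω = (M.btd d d₀ κ₀ α N j s b bs).Φ ω' ∧
      (M.btd d d₀ κ₀ α N j s b bs).a ω = (M.btd d d₀ κ₀ α N j s b bs).a ω' := by
  have e : ({TNm.X s} ∪ nD1 n bs : Finset (TNm n)) = ({TNm.X s} ∪ nD0 (rf0 n) bs) ∪ {TNm.B 0 true bs} := by
    rw [nD1, Finset.union_assoc]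
  rw [e]
  exact (tr_agr_union M.sys _ _ ω ω').trans ((tr_bt_agr_F M d d₀ κ₀ α N j s b bs ω ω').and (tr_geo_agr_B M 0 true bs ω ω'))

/-- the pair label -/
theorem tr_bt_agr_Y (M : TModel n) (d d₀ κ₀ α : ℝ) (N : ℕ) (j : Fin (n + 1)) (s b bs : ℚ) (ω ω' : M.Om) :
    M.sys.Agr (nY n bs (s + b) j) ω ω' ↔ (M.btd d d₀ κ₀ α N j s b bs).y0 ω = (M.btd d d₀ κ₀ α N j s b bs).y0 ω' ∧
      (M.btd d d₀ κ₀ α N j s b bs).yj ω = (M.btd d d₀ κ₀ α N j s b bs).yj ω' := by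
  have e : nY n bs (s + b) j = {TNm.Z (rf0 n) bs (s + b) 0} ∪ {TNm.Z (rf0 n) bs (s + b) j} := by
    rw [nY, Finset.insert_eq]
  rw [e]
  exact (tr_agr_union M.sys _ _ ω ω').trans ((tr_geo_agr_Z M _ bs (s + b) 0 ω ω').and (tr_geo_agr_Z M _ bs (s + b) j ω ω'))

variable (M : TModel n) (d d₀ κ₀ α : ℝ) (N : ℕ) (j : Fin (n + 1)) (s b bs : ℚ) (ω : M.Om)

theorem tr_bt_mF_eq : (M.btd d d₀ κ₀ α N j s b bs).mF ω = M.sys.ms ({TNm.X s} ∪ nD0 (rf0 n) bs) ω := by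
  refine Eq.trans ?_ (tr_geo_ms_eq M.sys _ ω).symm
  exact congrArg M.law.pr (funext fun ω' => propext (tr_bt_agr_F M d d₀ κ₀ α N j s b bs ω' ω).symm)

theorem tr_bt_mFa_eq : (M.btd d d₀ κ₀ α N j s b bs).mFa ω = M.sys.ms ({TNm.X s} ∪ nD1 n bs) ω := by
  refine Eq.trans ?_ (tr_geo_ms_eq M.sys _ ω).symm
  exact congrArg M.law.pr (funext fun ω' => propext (tr_bt_agr_Fa M d d₀ κ₀ α N j s b bs ω' ω).symm)

theorem tr_bt_mY_eq : (M.btd d d₀ κ₀ α N j s b bs).mY ω = M.sys.ms (nY n bs (s + b) j ∪ ({TNm.X s} ∪ nD0 (rf0 n) bs)) ω := by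
  refine Eq.trans ?_ (tr_geo_ms_eq M.sys _ ω).symm
  refine congrArg M.law.pr (funext fun ω' => propext ?_)
  exact Iff.symm ((tr_agr_union M.sys _ _ ω' ω).trans
    (((tr_bt_agr_Y M d d₀ κ₀ α N j s b bs ω' ω).and (tr_bt_agr_F M d d₀ κ₀ α N j s b bs ω' ω)).trans and_comm))

theorem tr_bt_mYa_eq : (M.btd d d₀ κ₀ α N j s b bs).mYa ω = M.sys.ms (nY n bs (s + b) j ∪ ({TNm.X s} ∪ nD1 n bs)) ω := by
  refine Eq.trans ?_ (tr_geo_ms_eq M.sys _ ω).symm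
  refine congrArg M.law.pr (funext fun ω' => propext ?_)
  exact Iff.symm ((tr_agr_union M.sys _ _ ω' ω).trans
    (((tr_bt_agr_Y M d d₀ κ₀ α N j s b bs ω' ω).and (tr_bt_agr_Fa M d d₀ κ₀ α N j s b bs ω' ω)).trans (and_comm.trans and_assoc)))

theorem tr_bt_mPa_eq : (M.btd d d₀ κ₀ α N j s b bs).mPa ω = M.sys.ms ({TNm.Pi bs (s + b) j} ∪ ({TNm.X s} ∪ nD1 n bs)) ω := by
  refine Eq.trans ?_ (tr_geo_ms_eq M.sys _ ω).symm
  refine congrArg M.law.pr (funext fun ω' => propext ?_)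
  exact Iff.symm ((tr_agr_union M.sys _ _ ω' ω).trans
    (((tr_geo_agr_Pi M bs (s + b) j ω' ω).and (tr_bt_agr_Fa M d d₀ κ₀ α N j s b bs ω' ω)).trans (and_comm.trans and_assoc)))

theorem tr_bt_m0_eq : (M.btd d d₀ κ₀ α N j s b bs).m0 ω = M.sys.ms ({TNm.Z (rf0 n) bs (s + b) 0} ∪ ({TNm.X s} ∪ nD0 (rf0 n) bs)) ω := by
  refine Eq.trans ?_ (tr_geo_ms_eq M.sys _ ω).symm
  refine congrArg M.law.pr (funext fun ω' => propext ?_)
  exact Iff.symm ((tr_agr_union M.sys _ _ ω' ω).trans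
    (((tr_geo_agr_Z M _ bs (s + b) 0 ω' ω).and (tr_bt_agr_F M d d₀ κ₀ α N j s b bs ω' ω)).trans and_comm))

theorem tr_bt_mZ_eq (k : ℕ) : (M.btd d d₀ κ₀ α N j s b bs).mZ k ω
    = M.sys.ms ({TNm.Z (rf0 n) bs (s + b * k / N) 0} ∪ ({TNm.X s} ∪ nD0 (rf0 n) bs)) ω := by
  refine Eq.trans ?_ (tr_geo_ms_eq M.sys _ ω).symm
  refine congrArg M.law.pr (funext fun ω' => propext ?_)
  exact Iff.symm ((tr_agr_union M.sys _ _ ω' ω).trans
    (((tr_geo_agr_Z M _ bs (s + b * k / N) 0 ω' ω).and (tr_bt_agr_F M d d₀ κ₀ α N j s b bs ω' ω)).trans and_comm))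

end Claimed.Agent.R257.TR
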