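import Claimed.Agent.R257.TR.BT.AGeo
import Claimed.Agent.R257.TR.BT.AMass

/-!
# R257 / TR / BT / AOk : a model satisfies the hypotheses of the abstract block test      (architect helper176)      glue
-/

set_option autoImplicit false

namespace Claimed.Agent.R257.TR

open Claimed.Agent.R255 Claimed.Agent.R257 Claimed.Agent.RW
open scoped BigOperators
open Classical

variable {n : ℕ} {M : TModel n} {R₀ c₁ Cτ : ℝ}

/-- powers of `K = L^b` -/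
theorem tr_bt_K_pow (L : ℝ) (hL : 0 < L) (b t : ℝ) : (L ^ b) ^ t = L ^ (b * t) := (Real.rpow_mul hL.le b t).symm

/-- the angular bound (H (t:angular-probability)) in the form of `BTD.Ok.h7` -/
theorem tr_bt_h7 (hM : M.Ok R₀ c₁ Cτ) (d d₀ κ₀ α : ℝ) (N : ℕ) (j : Fin (n + 1)) (hj : j ≠ 0) (s b bs : ℚ) (hb : 0 < b) (hbs : b ≤ bs)
    (hκ₀ : 0 < κ₀) (hα : 0 < α) (hN : 1 ≤ N) (hs : 4 * (n : ℝ) * M.L ^ M.ε ≤ M.L ^ (bs : ℝ))
    (ω₀ : M.Om) (c r : ℝ) (hr : 1 / (2 * (M.L ^ M.ε * (n + 2) + 1) * M.L ^ (b : ℝ)) ≤ r) :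
    M.law.pr (fun ω => (M.btd d d₀ κ₀ α N j s b bs).S ω ∧ (M.btd d d₀ κ₀ α N j s b bs).Φ ω = (M.btd d d₀ κ₀ α N j s b bs).Φ ω₀ ∧
        |M.art bs j ω - c| ≤ r)
      ≤ (M.L ^ (b : ℝ)) ^ (α + κ₀ / N) * (2 * (M.L ^ M.ε * (n + 2) + 1) * (1 + 2 * M.btL3 R₀)) ^ κ₀ * r ^ κ₀
        * M.law.pr (fun ω => (M.btd d d₀ κ₀ α N j s b bs).Φ ω = (M.btd d d₀ κ₀ α N j s b bs).Φ ω₀) := by
  have hL2 : 2 ≤ M.L := hM.L_ge
  have hL1 : 1 < M.L := by linarith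
  have hL0 : 0 < M.L := by linarith
  have hbsR : (b : ℝ) ≤ bs := by exact_mod_cast hbs
  have hQ : 1 ≤ M.L ^ M.ε := tr_geo_one_le_Q hM
  have hn0 : (0 : ℝ) ≤ n := Nat.cast_nonneg n
  have hA := tr_bt_btA_ge hM
  have hL3 : 0 ≤ M.btL3 R₀ := by
    unfold TModel.btL3
    have : 0 ≤ M.btA R₀ := by linarith
    positivity
  obtain ⟨Λ₁, hΛ₁⟩ : ∃ Λ₁ : ℝ, Λ₁ = M.L ^ M.ε * (n + 2) + 1 := ⟨_, rfl⟩
  rw [← hΛ₁] at hr ⊢
  have hΛ1 : 1 ≤ Λ₁ := by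
    rw [hΛ₁]
    have : 0 ≤ M.L ^ M.ε * (n + 2) := by positivity
    linarith
  have hΛ0 : 0 < Λ₁ := by linarith
  have hLb : 0 < M.L ^ (b : ℝ) := Real.rpow_pos_of_pos hL0 _
  have hr0 : 0 < r := lt_of_lt_of_le (by positivity) hr
  have hr1 : M.L ^ (-(b : ℝ)) ≤ 2 * Λ₁ * r := by
    rw [Real.rpow_neg hL0.le, inv_eq_one_div, div_le_iff₀ hLb]
    rw [div_le_iff₀ (by positivity)] at hr
    linarith
  have hF : ∀ (ω : M.Om) (T : M.τ), ((M.btd d d₀ κ₀ α N j s b bs).Φ (M.alt ω T) = (M.btd d d₀ κ₀ α N j s b bs).Φ ω₀) ↔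
      ((M.btd d d₀ κ₀ α N j s b bs).Φ ω = (M.btd d d₀ κ₀ α N j s b bs).Φ ω₀) := by
    intro ω T
    have e : (M.btd d d₀ κ₀ α N j s b bs).Φ (M.alt ω T) = (M.btd d d₀ κ₀ α N j s b bs).Φ ω := by
      show ((cellL (sc M.L s) (M.pos (M.alt ω T).1), fun i => binL (sc M.L bs) (M.fr i ((M.alt ω T).2 (i, false)))) :
          ((Fin n → ℤ) × ℤ) × (Fin (n + 1) → Fin n → ℤ)) = (cellL (sc M.L s) (M.pos ω.1), fun i => binL (sc M.L bs) (M.fr i (ω.2 (i, false))))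
      simp only [tr_bt_alt_fst, tr_bt_alt_snd_false]
    rw [e]
  have hE : ∀ ω : M.Om, (M.btd d d₀ κ₀ α N j s b bs).S ω → 0 < M.law.p ω ∧ ∀ k : ℕ, 1 ≤ k → k ≤ N →
      κ₀ * ((b * k / N : ℚ) : ℝ) - α * b < M.xv (TEx.h j (b * k / N)) ω := by
    rintro ω ⟨⟨-, -, -, -, h5⟩, hp⟩
    exact ⟨hp, fun k hk1 hkN => (h5 k hk1 hkN).2.2⟩
  have hδ : ∀ ω : M.Om, (M.btd d d₀ κ₀ α N j s b bs).S ω →
      |M.rat 0 j ω (ω.2 (0, true)) - M.art bs j ω| ≤ M.btL3 R₀ * M.L ^ (-(bs : ℝ)) :=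
    fun ω _ => tr_bt_rat_art hM bs hs j hj ω
  have hLbs : 0 < M.L ^ (-(bs : ℝ)) := Real.rpow_pos_of_pos hL0 _
  have key := tr_bt_slope M hL1 j b bs hb κ₀ α hκ₀ hα.le N hN (fun ω : M.Om => (M.btd d d₀ κ₀ α N j s b bs).S ω)
    (fun ω : M.Om => (M.btd d d₀ κ₀ α N j s b bs).Φ ω = (M.btd d d₀ κ₀ α N j s b bs).Φ ω₀) hF (M.btL3 R₀ * M.L ^ (-(bs : ℝ)))
    (mul_nonneg hL3 hLbs.le) hE hδ c (Λ₁ * r) (by linarith)
  have hmono : M.law.pr (fun ω => (M.btd d d₀ κ₀ α N j s b bs).S ω ∧ (M.btd d d₀ κ₀ α N j s b bs).Φ ω = (M.btd d d₀ κ₀ α N j s b bs).Φ ω₀ ∧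
        |M.art bs j ω - c| ≤ r)
      ≤ M.law.pr (fun ω => (M.btd d d₀ κ₀ α N j s b bs).S ω ∧ (M.btd d d₀ κ₀ α N j s b bs).Φ ω = (M.btd d d₀ κ₀ α N j s b bs).Φ ω₀ ∧
        |M.art bs j ω - c| ≤ Λ₁ * r) :=
    tr_info_pr_congr _ _ _ (fun ω _ h => ⟨h.1, h.2.1, h.2.2.trans (le_mul_of_one_le_left hr0.le hΛ1)⟩)
  refine hmono.trans (key.trans ?_)
  refine mul_le_mul_of_nonneg_right ?_ (tr_info_pr_nonneg _ _)
  rw [tr_bt_K_pow _ hL0, mul_assoc, ← Real.mul_rpow (by positivity) hr0.le]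
  have e1 : α * b + κ₀ * b / N = b * (α + κ₀ / N) := by ring
  rw [e1]
  refine mul_le_mul_of_nonneg_left ?_ (Real.rpow_pos_of_pos hL0 _).le
  refine Real.rpow_le_rpow (by positivity) ?_ hκ₀.le
  have h3 : M.L ^ (-(bs : ℝ)) ≤ M.L ^ (-(b : ℝ)) := Real.rpow_le_rpow_of_exponent_le hL1.le (by linarith)
  calc 2 * (Λ₁ * r) + 2 * (M.btL3 R₀ * M.L ^ (-(bs : ℝ))) ≤ 2 * (Λ₁ * r) + 2 * (M.btL3 R₀ * (2 * Λ₁ * r)) := by
        gcongr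
        exact h3.trans hr1
    _ = 2 * Λ₁ * (1 + 2 * M.btL3 R₀) * r := by ring

/-- **a model satisfies the hypotheses of the abstract block test** -/
theorem tr_bt_ok (hM : M.Ok R₀ c₁ Cτ) (d d₀ κ₀ α : ℝ) (N : ℕ) (j : Fin (n + 1)) (hj : j ≠ 0) (s b bs : ℚ) (hblk : EBlk s b) (hbs : b ≤ bs)
    (hd₀ : 0 < d₀) (hκ₀ : 0 < κ₀) (hα : 0 < α) (hN : 1 ≤ N) (hs : 4 * (n : ℝ) * M.L ^ M.ε ≤ M.L ^ (bs : ℝ)) :
    (M.btd d d₀ κ₀ α N j s b bs).Ok (M.btp R₀ d d₀ κ₀ α N s b) := by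
  obtain ⟨hs0, hb0, hsb1, hb8⟩ := hblk
  have hL2 : 2 ≤ M.L := hM.L_ge
  have hL1 : 1 < M.L := by linarith
  have hL0 : 0 < M.L := by linarith
  have hbR : (0 : ℝ) < b := by exact_mod_cast hb0
  have hQ : 1 ≤ M.L ^ M.ε := tr_geo_one_le_Q hM
  have hn0 : (0 : ℝ) ≤ n := Nat.cast_nonneg n
  have hA := tr_bt_btA_ge hM
  have hNR : (0 : ℝ) < N := by exact_mod_cast hN
  have hL3 : 0 ≤ M.btL3 R₀ := by
    unfold TModel.btL3
    have : 0 ≤ M.btA R₀ := by linarith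
    positivity
  have hcast : ((s + b : ℚ) : ℝ) - s = b := by push_cast; ring
  refine
    { K_ge := Real.one_le_rpow hL1.le hbR.le
      W_ge := tr_bt_sc_one M.L hL2 s (s + b) (by linarith)
      W_le := ?_
      Λ₁_ge := ?_
      Λ₂_ge := ?_
      Cν_nonneg := ?_
      N_pos := hN
      d₀_pos := hd₀
      κ₀_pos := hκ₀
      α_pos := hα
      S_pos := fun ω h => h.2
      h1l := ?_
      h1u := ?_
      h2u := ?_
      h3 := ?_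
      h4 := ?_
      h6 := ?_
      h7 := ?_
      g_sl := ?_
      g_slb := fun ω => tr_bt_art_bd hM bs hs j ω
      g_pi := ?_
      g_rng := ?_
      g_nest := ?_
      e_lo := ?_ }
  · have := tr_geo_sc_ratio M.L hL2 s (s + b) (by linarith)
    rw [hcast] at this
    exact this
  · show 1 ≤ M.L ^ M.ε * (n + 2) + 1
    have : 0 ≤ M.L ^ M.ε * (n + 2) := by positivity
    linarith
  · show 1 ≤ M.btA R₀ ^ 2
    nlinarith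
  · show 0 ≤ (M.L ^ (b : ℝ)) ^ (α + κ₀ / N) * (2 * (M.L ^ M.ε * (n + 2) + 1) * (1 + 2 * M.btL3 R₀)) ^ κ₀
    positivity
  · -- h1l
    rintro ω ⟨⟨h1, -⟩, hp⟩
    rw [tr_bt_mF_eq M d d₀ κ₀ α N j s b bs ω, tr_bt_mY_eq M d d₀ κ₀ α N j s b bs ω]
    have := tr_bt_cI_lt M.sys hL1 ω hp _ _ (2 * d * b + α * b) (by linarith [(abs_lt.1 h1).2])
    refine le_trans (le_of_eq ?_) this
    show (M.L ^ (b : ℝ)) ^ (-2 * d - α) * _ = M.L ^ (-(2 * d * b + α * b)) * _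
    rw [tr_bt_K_pow _ hL0]
    congr 2
    ring
  · -- h1u
    rintro ω ⟨⟨h1, -⟩, hp⟩
    rw [tr_bt_mF_eq M d d₀ κ₀ α N j s b bs ω, tr_bt_mY_eq M d d₀ κ₀ α N j s b bs ω]
    have := tr_bt_lt_cI M.sys hL1 ω hp _ _ (2 * d * b - α * b) (by linarith [(abs_lt.1 h1).1])
    refine le_trans this (le_of_eq ?_)
    show M.L ^ (-(2 * d * b - α * b)) * _ = (M.L ^ (b : ℝ)) ^ (-2 * d + α) * _
    rw [tr_bt_K_pow _ hL0]
    congr 2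
    ring
  · -- h2u
    rintro ω ⟨⟨-, h2, -⟩, hp⟩
    rw [tr_bt_mFa_eq M d d₀ κ₀ α N j s b bs ω, tr_bt_mYa_eq M d d₀ κ₀ α N j s b bs ω]
    have := tr_bt_lt_cI M.sys hL1 ω hp _ _ (2 * d * b - α * b) (by linarith [(abs_lt.1 h2).1])
    refine le_trans this (le_of_eq ?_)
    show M.L ^ (-(2 * d * b - α * b)) * _ = (M.L ^ (b : ℝ)) ^ (-2 * d + α) * _
    rw [tr_bt_K_pow _ hL0]
    congr 2
    ring
  · -- h3
    rintro ω ⟨⟨-, -, h3, -⟩, hp⟩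
    rw [tr_bt_mFa_eq M d d₀ κ₀ α N j s b bs ω, tr_bt_mPa_eq M d d₀ κ₀ α N j s b bs ω]
    have := tr_bt_cI_lt M.sys hL1 ω hp _ _ (d * b + α * b) h3
    refine le_trans (le_of_eq ?_) this
    show (M.L ^ (b : ℝ)) ^ (-d - α) * _ = M.L ^ (-(d * b + α * b)) * _
    rw [tr_bt_K_pow _ hL0]
    congr 2
    ring
  · -- h4
    rintro ω ⟨⟨-, -, -, h4, -⟩, hp⟩
    rw [tr_bt_mF_eq M d d₀ κ₀ α N j s b bs ω, tr_bt_m0_eq M d d₀ κ₀ α N j s b bs ω]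
    have := tr_bt_cI_lt M.sys hL1 ω hp _ _ (d * b + α * b) h4
    refine le_trans (le_of_eq ?_) this
    show (M.L ^ (b : ℝ)) ^ (-d - α) * _ = M.L ^ (-(d * b + α * b)) * _
    rw [tr_bt_K_pow _ hL0]
    congr 2
    ring
  · -- h6
    rintro ω ⟨⟨-, -, -, -, h5⟩, hp⟩ k hk1 hkN
    rw [tr_bt_mF_eq M d d₀ κ₀ α N j s b bs ω, tr_bt_mZ_eq M d d₀ κ₀ α N j s b bs ω k]
    have := tr_bt_lt_cI M.sys hL1 ω hp _ _ _ (h5 k hk1 hkN).2.1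
    refine le_trans this (le_of_eq ?_)
    show M.L ^ (-(d₀ * ((b * k / N : ℚ) : ℝ) - α * b)) * _ = (M.L ^ (b : ℝ)) ^ (-d₀ * k / N + α) * _
    rw [tr_bt_K_pow _ hL0]
    congr 2
    push_cast
    ring
  · -- h7
    intro ω₀ c r hr
    exact tr_bt_h7 hM d d₀ κ₀ α N j hj s b bs hb0 hbs hκ₀ hα hN hs ω₀ c r hr
  · -- g_sl
    intro ω ω' hΦ ha
    exact tr_bt_art_congr M bs j ω ω' (fun i => congrFun (congrArg Prod.snd hΦ) i) ha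
  · -- g_pi
    intro ω
    have := tr_bt_floor_pi ((2 : ℝ) ^ (sc M.L (s + b)) * M.gc (rf0 n) bs ω 0) ((2 : ℝ) ^ (sc M.L (s + b)) * M.gc (rf0 n) bs ω j)
      (M.art bs j ω) (M.btA R₀ ^ 2) (tr_bt_art_bd hM bs hs j ω)
    have e : (2 : ℝ) ^ (sc M.L (s + b)) * M.gc (rf0 n) bs ω j - M.art bs j ω * ((2 : ℝ) ^ (sc M.L (s + b)) * M.gc (rf0 n) bs ω 0)
        = (2 : ℝ) ^ (sc M.L (s + b)) * (M.gc (rf0 n) bs ω j - M.art bs j ω * M.gc (rf0 n) bs ω 0) := by ring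
    rw [e] at this
    exact this
  · -- g_rng
    intro ω ω' hΦ
    have h1 := congrArg Prod.fst hΦ
    have h2 : ∀ i, binL (sc M.L bs) (M.fr i (ω.2 (i, false))) = binL (sc M.L bs) (M.fr i (ω'.2 (i, false))) :=
      fun i => congrFun (congrArg Prod.snd hΦ) i
    exact ⟨tr_bt_rng hM bs s (s + b) hs (by linarith) ω ω' h1 h2 0, tr_bt_rng hM bs s (s + b) hs (by linarith) ω ω' h1 h2 j⟩
  · -- g_nest
    intro k ω hk1 hkN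
    refine tr_bt_floor_nest _ _ (tr_geo_sc_mono M.L hL2 _ _ ?_) _
    have hkN' : (k : ℚ) ≤ N := by exact_mod_cast hkN
    have hNQ : (0 : ℚ) < N := by exact_mod_cast hN
    have : b * k / N ≤ b := by
      rw [div_le_iff₀ hNQ]
      exact mul_le_mul_of_nonneg_left hkN' hb0.le
    linarith
  · -- e_lo
    intro k hk1 hkN
    have hNQ : (0 : ℚ) < N := by exact_mod_cast hN
    have := tr_bt_sc_lo M.L hL2 (s + b * k / N) (s + b) (by positivity)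
    refine le_trans (le_of_eq ?_) this
    show (M.L ^ (b : ℝ)) ^ (1 - (k : ℝ) / N) / 2 = _
    rw [tr_bt_K_pow _ hL0]
    congr 2
    push_cast
    ring

end Claimed.Agent.R257.TR
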