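import Claimed.Agent.R257.TR.BT.Defs

/-!
# R257 / TR / BT / Abs1 : abstract block test: averaging, elementary facts, product mass      (architect helper176)      PAPER-FREE
Leaves L-TR-BT-BAS (all lemmas except `tr_bt_mass`), L-TR-BT-MASS (`tr_bt_mass`).   `FLaw.pr E = ∑ ω, if E ω then p ω else 0`  (R255/Base/Law.lean).
-/

set_option autoImplicit false

namespace Claimed.Agent.R257.TR

open Claimed.Agent.R255 Claimed.Agent.RW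
open scoped BigOperators
open Classical

variable (D : BTD) (q : BTP)

/-- **averaging over the fibres**.  `P(S) = ∑_l P(S, Φ = l)` (sum over `l ∈ univ.image Φ`); a label `l` without successful point contributes `0`. -/
theorem tr_bt_avg (p : ℝ) (hp : 0 ≤ p)
    (h : ∀ ω₀, D.S ω₀ → D.P.pr (fun ω => D.S ω ∧ D.Fb ω₀ ω) ≤ p * D.mF ω₀) : D.P.pr D.S ≤ p := by
  have h1 := ent_pr_sum_values D.P D.S D.Φ (Finset.univ.image D.Φ) (fun ω _ _ => Finset.mem_image_of_mem _ (Finset.mem_univ ω))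
  have h2 := ent_pr_sum_values D.P (fun _ => True) D.Φ (Finset.univ.image D.Φ) (fun ω _ _ => Finset.mem_image_of_mem _ (Finset.mem_univ ω))
  rw [ent_pr_true] at h2
  have h3 : ∀ l ∈ Finset.univ.image D.Φ, D.P.pr (fun ω => D.S ω ∧ D.Φ ω = l) ≤ p * D.P.pr (fun ω => True ∧ D.Φ ω = l) := by
    intro l _
    by_cases hl : ∃ ω₀, D.S ω₀ ∧ D.Φ ω₀ = l
    · obtain ⟨ω₀, hS, rfl⟩ := hl
      refine (h ω₀ hS).trans (le_of_eq ?_)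
      congr 1
      exact ent_pr_congr _ fun ω _ => by simp
    · rw [ent_pr_eq_zero D.P fun ω _ hω => hl ⟨ω, hω⟩]
      exact mul_nonneg hp (ent_pr_nonneg _ _)
  calc D.P.pr D.S = _ := h1
    _ ≤ ∑ l ∈ Finset.univ.image D.Φ, p * D.P.pr (fun ω => True ∧ D.Φ ω = l) := Finset.sum_le_sum h3
    _ = p := by rw [← Finset.mul_sum, ← h2, mul_one]

theorem tr_bt_mF_pos (ω₀ : D.Ω) (h : 0 < D.P.p ω₀) : 0 < D.mF ω₀ := by
  unfold BTD.mF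
  exact (ent_pr_pos_iff _ _).2 ⟨ω₀, rfl, h.ne'⟩

theorem tr_bt_mF_nonneg (ω₀ : D.Ω) : 0 ≤ D.mF ω₀ := ent_pr_nonneg _ _

theorem tr_bt_mu_nonneg (ω₀ ω : D.Ω) : 0 ≤ D.mu ω₀ ω := by
  unfold BTD.mu
  split_ifs
  · exact div_nonneg (D.P.nonneg ω) (tr_bt_mF_nonneg D ω₀)
  · exact le_rfl

theorem tr_bt_nu_nonneg (ω₀ ω : D.Ω) : 0 ≤ D.nu ω₀ ω := by
  unfold BTD.nu
  split_ifs
  · exact div_nonneg (D.P.nonneg ω) (tr_bt_mF_nonneg D ω₀)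
  · exact le_rfl

theorem tr_bt_lam_nonneg (ω₀ ω : D.Ω) : 0 ≤ D.lam ω₀ ω := by
  unfold BTD.lam
  split_ifs
  · exact div_nonneg (D.P.nonneg ω) (tr_bt_mF_nonneg D ω₀)
  · exact le_rfl

theorem tr_bt_sum_ite {Ω : Type} [Fintype Ω] (P : FLaw Ω) (E : Ω → Prop) [DecidablePred E] (c : ℝ) : ∑ ω, (if E ω then P.p ω / c else 0) = P.pr E / c := by
  unfold FLaw.pr
  rw [Finset.sum_div]
  refine Finset.sum_congr rfl fun ω _ => ?_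
  by_cases hE : E ω
  · rw [if_pos hE, if_pos hE]
  · rw [if_neg hE, if_neg hE, zero_div]

theorem tr_bt_sum_le_one (ω₀ : D.Ω) (E : D.Ω → Prop) : ∑ ω, (if D.Fb ω₀ ω ∧ E ω then D.P.p ω / D.mF ω₀ else 0) ≤ 1 := by
  rw [tr_bt_sum_ite]
  refine div_le_one_of_le₀ ?_ (tr_bt_mF_nonneg D ω₀)
  exact ent_pr_mono _ fun ω _ hω => hω.1

theorem tr_bt_mu_sum (ω₀ : D.Ω) : ∑ ω, D.mu ω₀ ω ≤ 1 := by
  exact tr_bt_sum_le_one D ω₀ _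

theorem tr_bt_nu_sum (ω₀ : D.Ω) : ∑ ω, D.nu ω₀ ω ≤ 1 := by
  exact tr_bt_sum_le_one D ω₀ _

theorem tr_bt_lam_sum (ω₀ : D.Ω) : ∑ ω, D.lam ω₀ ω ≤ 1 := by
  exact tr_bt_sum_le_one D ω₀ _

theorem tr_bt_rho_pos (hD : D.Ok q) : 0 < q.rho := by
  have h1 := hD.Λ₁_ge
  have h2 := hD.Λ₂_ge
  have h3 := hD.W_ge
  unfold BTP.rho
  have : 0 < q.Λ₁ * q.Λ₂ * q.W := mul_pos (mul_pos (by linarith) (by linarith)) (by linarith)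
  positivity

/-- `τx = Λ₂ ρ` -/
theorem tr_bt_tx_eq (hD : D.Ok q) : q.tx = q.Λ₂ * q.rho := by
  have h1 : q.Λ₁ ≠ 0 := by linarith [hD.Λ₁_ge]
  have h2 : q.Λ₂ ≠ 0 := by linarith [hD.Λ₂_ge]
  have h3 : q.W ≠ 0 := by linarith [hD.W_ge]
  unfold BTP.rho BTP.tx
  field_simp

/-- the points lie in the unit square (`g_rng`) -/
theorem tr_bt_pt_bd (hD : D.Ok q) (ω₀ ω : D.Ω) : |(D.pt q ω₀ ω).1| ≤ 1 ∧ |(D.pt q ω₀ ω).2| ≤ 1 := by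
  have h1 := hD.Λ₁_ge
  have h2 := hD.Λ₂_ge
  have h3 := hD.W_ge
  have hΛW : 0 < q.Λ₁ * q.W := mul_pos (by linarith) (by linarith)
  unfold BTD.pt
  split_ifs with hF
  · obtain ⟨g1, g2⟩ := hD.g_rng ω ω₀ hF
    constructor
    · show |((D.y0 ω : ℝ) - D.y0 ω₀) * q.tx| ≤ 1
      unfold BTP.tx
      rw [mul_one_div, abs_div, abs_of_pos hΛW, div_le_one hΛW]
      exact g1
    · show |((D.yj ω : ℝ) - D.yj ω₀) * q.rho| ≤ 1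
      unfold BTP.rho
      have hp : 0 < q.Λ₁ * q.Λ₂ * q.W := mul_pos (mul_pos (by linarith) (by linarith)) (by linarith)
      rw [mul_one_div, abs_div, abs_of_pos hp, div_le_one hp]
      refine g2.trans ?_
      have : q.Λ₁ * q.W * 1 ≤ q.Λ₁ * q.W * q.Λ₂ := mul_le_mul_of_nonneg_left h2 hΛW.le
      linarith
  · simp

theorem tr_bt_sn_bd (hD : D.Ok q) (ω : D.Ω) : |D.sn q ω| ≤ 1 := by
  have h2 : 0 < q.Λ₂ := by linarith [hD.Λ₂_ge]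
  unfold BTD.sn
  rw [abs_div, abs_of_pos h2, div_le_one h2]
  exact hD.g_slb ω

/-- the projection in label units -/
theorem tr_bt_proj (hD : D.Ok q) (ω₀ x b : D.Ω) (hx : D.Fb ω₀ x) :
    kfProj (D.sn q b) (D.pt q ω₀ x) = q.rho * (((D.yj x : ℝ) - D.sl b * D.y0 x) - ((D.yj ω₀ : ℝ) - D.sl b * D.y0 ω₀)) := by
  have h2 : q.Λ₂ ≠ 0 := by linarith [hD.Λ₂_ge]
  unfold kfProj BTD.pt BTD.sn
  rw [if_pos hx, tr_bt_tx_eq D q hD]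
  field_simp
  ring

theorem tr_bt_mF_congr {ω ω' : D.Ω} (h : D.Φ ω = D.Φ ω') : D.mF ω = D.mF ω' := by
  unfold BTD.mF
  rw [h]

/-- the mass of the points attached to one tag -/
theorem tr_bt_inner (hD : D.Ok q) (ω₀ : D.Ω) (h₀ : D.S ω₀) (ω' : D.Ω) (hS : D.S ω') (hF : D.Fb ω₀ ω') :
    q.K ^ (-2 * q.α) * (D.P.pr (fun ω => (D.S ω ∧ D.Fb ω₀ ω) ∧ D.a ω = D.a ω') / D.P.pr (fun ω => D.Fb ω₀ ω ∧ D.a ω = D.a ω'))
      ≤ ∑ x, if (x, ω') ∈ D.G ω₀ then D.mu ω₀ x else 0 := by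
  have hK0 : 0 < q.K := by linarith [hD.K_ge]
  have hF0 : 0 < D.mF ω₀ := tr_bt_mF_pos D ω₀ (hD.S_pos ω₀ h₀)
  obtain ⟨A', hA'⟩ : ∃ A' : Finset (ℤ × ℤ), A' = (Finset.univ.filter (fun ω => D.S ω ∧ D.Fb ω₀ ω ∧ D.a ω = D.a ω')).image (fun ω => (D.y0 ω, D.yj ω)) := ⟨_, rfl⟩
  have hA'mem : ∀ y, y ∈ A' ↔ ∃ ω'', D.S ω'' ∧ D.Fb ω₀ ω'' ∧ D.a ω'' = D.a ω' ∧ D.y0 ω'' = y.1 ∧ D.yj ω'' = y.2 := by
    intro y
    rw [hA', Finset.mem_image]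
    constructor
    · rintro ⟨ω'', h1, rfl⟩
      obtain ⟨-, h2, h3, h4⟩ := Finset.mem_filter.1 h1
      exact ⟨ω'', h2, h3, h4, rfl, rfl⟩
    · rintro ⟨ω'', h2, h3, h4, h5, h6⟩
      exact ⟨ω'', Finset.mem_filter.2 ⟨Finset.mem_univ _, h2, h3, h4⟩, Prod.ext h5 h6⟩
  have hf0 : 0 < D.P.pr (fun ω => D.Fb ω₀ ω ∧ D.a ω = D.a ω') := (ent_pr_pos_iff _ _).2 ⟨ω', ⟨hF, rfl⟩, (hD.S_pos ω' hS).ne'⟩
  -- the right side
  have hR : ∑ x, (if (x, ω') ∈ D.G ω₀ then D.mu ω₀ x else 0) = D.P.pr (fun ω => D.Fb ω₀ ω ∧ (D.y0 ω, D.yj ω) ∈ A') / D.mF ω₀ := by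
    rw [← tr_bt_sum_ite]
    refine Finset.sum_congr rfl fun x _ => ?_
    by_cases hx : D.Fb ω₀ x ∧ (D.y0 x, D.yj x) ∈ A'
    · obtain ⟨ω'', h2, h3, h4, h5, h6⟩ := (hA'mem _).1 hx.2
      have hG : (x, ω') ∈ D.G ω₀ := by
        unfold BTD.G
        exact Finset.mem_filter.2 ⟨Finset.mem_univ _, hx.1, hF, hS, ω'', h2, h3, h4, h5, h6⟩
      rw [if_pos hG, if_pos hx]
      unfold BTD.mu
      rw [if_pos ⟨hx.1, ω'', h2, h3, h5, h6⟩]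
    · have hG : (x, ω') ∉ D.G ω₀ := by
        intro hG
        unfold BTD.G at hG
        obtain ⟨-, g1, -, -, ω'', h2, h3, h4, h5, h6⟩ := Finset.mem_filter.1 hG
        exact hx ⟨g1, (hA'mem _).2 ⟨ω'', h2, h3, h4, h5, h6⟩⟩
      rw [if_neg hG, if_neg hx]
  -- lower bound
  have hlow : (A'.card : ℝ) * (q.K ^ (-2 * q.d - q.α) * D.mF ω₀) ≤ D.P.pr (fun ω => D.Fb ω₀ ω ∧ (D.y0 ω, D.yj ω) ∈ A') := by
    rw [ent_pr_sum_values D.P (fun ω => D.Fb ω₀ ω ∧ (D.y0 ω, D.yj ω) ∈ A') (fun ω => (D.y0 ω, D.yj ω)) A' (fun ω _ hω => hω.2), ← nsmul_eq_mul, ← Finset.sum_const]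
    refine Finset.sum_le_sum fun y hy => ?_
    obtain ⟨ω'', h2, h3, h4, h5, h6⟩ := (hA'mem _).1 hy
    have := hD.h1l ω'' h2
    rw [tr_bt_mF_congr D h3] at this
    refine this.trans (le_of_eq ?_)
    unfold BTD.mY
    refine ent_pr_congr _ fun ω _ => ?_
    constructor
    · rintro ⟨e1, e2, e3⟩
      have ey : (D.y0 ω, D.yj ω) = y := Prod.ext (e2.trans h5) (e3.trans h6)
      exact ⟨⟨e1.trans h3, ey ▸ hy⟩, ey⟩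
    · rintro ⟨⟨e1, -⟩, ey⟩
      refine ⟨e1.trans h3.symm, ?_, ?_⟩
      · rw [h5, ← ey]
      · rw [h6, ← ey]
  -- upper bound
  have hup : D.P.pr (fun ω => (D.S ω ∧ D.Fb ω₀ ω) ∧ D.a ω = D.a ω') ≤ (A'.card : ℝ) * (q.K ^ (-2 * q.d + q.α) * D.P.pr (fun ω => D.Fb ω₀ ω ∧ D.a ω = D.a ω')) := by
    rw [ent_pr_sum_values D.P (fun ω => (D.S ω ∧ D.Fb ω₀ ω) ∧ D.a ω = D.a ω') (fun ω => (D.y0 ω, D.yj ω)) A'
      (fun ω _ hω => (hA'mem _).2 ⟨ω, hω.1.1, hω.1.2, hω.2, rfl, rfl⟩), ← nsmul_eq_mul, ← Finset.sum_const]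
    refine Finset.sum_le_sum fun y hy => ?_
    obtain ⟨ω'', h2, h3, h4, h5, h6⟩ := (hA'mem _).1 hy
    have := hD.h2u ω'' h2
    have e1 : D.mFa ω'' = D.P.pr (fun ω => D.Fb ω₀ ω ∧ D.a ω = D.a ω') := by
      unfold BTD.mFa
      refine ent_pr_congr _ fun ω _ => ?_
      have h3' : D.Φ ω'' = D.Φ ω₀ := h3
      rw [h3', h4]
      rfl
    rw [e1] at this
    refine le_trans ?_ this
    unfold BTD.mYa
    refine ent_pr_mono _ fun ω _ => ?_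
    rintro ⟨⟨⟨-, e2⟩, e3⟩, ey⟩
    refine ⟨e2.trans h3.symm, e3.trans h4.symm, ?_, ?_⟩
    · rw [h5, ← ey]
    · rw [h6, ← ey]
  rw [hR, le_div_iff₀ hF0]
  refine le_trans ?_ hlow
  have e2 : q.K ^ (-2 * q.d - q.α) = q.K ^ (-2 * q.α) * q.K ^ (-2 * q.d + q.α) := by
    rw [← Real.rpow_add hK0]
    congr 1
    ring
  have h3 : D.P.pr (fun ω => (D.S ω ∧ D.Fb ω₀ ω) ∧ D.a ω = D.a ω') / D.P.pr (fun ω => D.Fb ω₀ ω ∧ D.a ω = D.a ω') ≤ (A'.card : ℝ) * q.K ^ (-2 * q.d + q.α) := by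
    rw [div_le_iff₀ hf0]
    exact hup.trans (le_of_eq (by ring))
  have hKa : 0 ≤ q.K ^ (-2 * q.α) := Real.rpow_nonneg hK0.le _
  calc q.K ^ (-2 * q.α) * (D.P.pr (fun ω => (D.S ω ∧ D.Fb ω₀ ω) ∧ D.a ω = D.a ω') / D.P.pr (fun ω => D.Fb ω₀ ω ∧ D.a ω = D.a ω')) * D.mF ω₀
      ≤ q.K ^ (-2 * q.α) * ((A'.card : ℝ) * q.K ^ (-2 * q.d + q.α)) * D.mF ω₀ :=
        mul_le_mul_of_nonneg_right (mul_le_mul_of_nonneg_left h3 hKa) hF0.le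
    _ = (A'.card : ℝ) * (q.K ^ (-2 * q.d - q.α) * D.mF ω₀) := by rw [e2]; ring

/-- **product mass of the graph** (H (t:large-subsets)).
PLAN.  `F₀ = mF ω₀`.  For a tag `ω'` (`S`, `Fb`) with bin `a' = a ω'` let `A' ⊆ ℤ × ℤ` be the finite set of the pair labels of the successful points of the fibre with bin `a'`.
(1) `P(S, Fb, a = a') ≤ ∑_{y ∈ A'} P(Fb, a = a', Y = y) ≤ #A' K^(-2d+α) P(Fb, a = a')`   (`h2u` at a witness of `y`);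
(2) `∑_{ω : (ω,ω') ∈ G} mu ω = P(Fb, Y ∈ A')/F₀ = ∑_{y ∈ A'} P(Fb, Y = y)/F₀ ≥ #A' K^(-2d-α)`   (`h1l` at a witness);   so the inner sum is `≥ K^(-2α) Q(a')`, `Q(a') = P(S,Fb,a=a')/P(Fb,a=a')`.
(3) `∑_{ω'} nu ω' Q(a ω') = (1/F₀) ∑_{a'} P(S,Fb,a')²/P(Fb,a') ≥ (1/F₀) P(S,Fb)²/F₀`   (`Finset.sq_sum_div_le_sum_sq_div`, sum over the bins `a'` with a successful point: there `P(Fb,a') > 0`). -/
theorem tr_bt_mass (hD : D.Ok q) (ω₀ : D.Ω) (h₀ : D.S ω₀) :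
    q.K ^ (-2 * q.α) * (D.P.pr (fun ω => D.S ω ∧ D.Fb ω₀ ω) / D.mF ω₀) ^ 2 ≤ ∑ x ∈ D.G ω₀, D.mu ω₀ x.1 * D.nu ω₀ x.2 := by
  have hK0 : 0 < q.K := by linarith [hD.K_ge]
  have hKa : 0 ≤ q.K ^ (-2 * q.α) := Real.rpow_nonneg hK0.le _
  have hF0 : 0 < D.mF ω₀ := tr_bt_mF_pos D ω₀ (hD.S_pos ω₀ h₀)
  obtain ⟨s, hs⟩ : ∃ s : D.A → ℝ, s = fun a' => D.P.pr (fun ω => (D.S ω ∧ D.Fb ω₀ ω) ∧ D.a ω = a') := ⟨_, rfl⟩
  obtain ⟨f, hf⟩ : ∃ f : D.A → ℝ, f = fun a' => D.P.pr (fun ω => D.Fb ω₀ ω ∧ D.a ω = a') := ⟨_, rfl⟩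
  obtain ⟨T, hT⟩ : ∃ T : Finset D.Ω, T = Finset.univ.filter (fun ω => D.S ω ∧ D.Fb ω₀ ω) := ⟨_, rfl⟩
  have hTmem : ∀ ω, ω ∈ T ↔ D.S ω ∧ D.Fb ω₀ ω := fun ω => by rw [hT]; simp
  -- step 1 : the sum over the graph
  have h1 : ∑ x ∈ D.G ω₀, D.mu ω₀ x.1 * D.nu ω₀ x.2 = ∑ x2, D.nu ω₀ x2 * ∑ x1, (if (x1, x2) ∈ D.G ω₀ then D.mu ω₀ x1 else 0) := by
    have e : ∑ x ∈ D.G ω₀, D.mu ω₀ x.1 * D.nu ω₀ x.2 = ∑ x, if x ∈ D.G ω₀ then D.mu ω₀ x.1 * D.nu ω₀ x.2 else 0 := by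
      rw [Finset.sum_ite_mem, Finset.univ_inter]
    rw [e, Fintype.sum_prod_type_right]
    refine Finset.sum_congr rfl fun x2 _ => ?_
    rw [Finset.mul_sum]
    refine Finset.sum_congr rfl fun x1 _ => ?_
    split_ifs
    · ring
    · ring
  -- step 2 : the inner bound
  have h2 : ∑ x2 ∈ T, D.P.p x2 / D.mF ω₀ * (q.K ^ (-2 * q.α) * (s (D.a x2) / f (D.a x2)))
      ≤ ∑ x2, D.nu ω₀ x2 * ∑ x1, (if (x1, x2) ∈ D.G ω₀ then D.mu ω₀ x1 else 0) := by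
    rw [hT, Finset.sum_filter]
    refine Finset.sum_le_sum fun x2 _ => ?_
    by_cases hx : D.S x2 ∧ D.Fb ω₀ x2
    · rw [if_pos hx]
      have e : D.nu ω₀ x2 = D.P.p x2 / D.mF ω₀ := by
        unfold BTD.nu
        rw [if_pos ⟨hx.2, hx.1⟩]
      rw [e, hs, hf]
      exact mul_le_mul_of_nonneg_left (tr_bt_inner D q hD ω₀ h₀ x2 hx.1 hx.2) (div_nonneg (D.P.nonneg _) hF0.le)
    · rw [if_neg hx]
      have e : D.nu ω₀ x2 = 0 := by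
        unfold BTD.nu
        rw [if_neg fun h => hx ⟨h.2, h.1⟩]
      rw [e, zero_mul]
  -- step 3 : grouping by the bins
  have hsa : ∀ a', ∑ x2 ∈ T with D.a x2 = a', D.P.p x2 = s a' := by
    intro a'
    rw [hs, hT, Finset.filter_filter, Finset.sum_filter]
    show _ = D.P.pr _
    unfold FLaw.pr
    refine Finset.sum_congr rfl fun ω _ => ?_
    by_cases hω : (D.S ω ∧ D.Fb ω₀ ω) ∧ D.a ω = a'
    · rw [if_pos hω, if_pos hω]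
    · rw [if_neg hω, if_neg hω]
  have h3 : ∑ x2 ∈ T, D.P.p x2 / D.mF ω₀ * (q.K ^ (-2 * q.α) * (s (D.a x2) / f (D.a x2)))
      = q.K ^ (-2 * q.α) / D.mF ω₀ * ∑ a' ∈ T.image D.a, s a' ^ 2 / f a' := by
    rw [← Finset.sum_fiberwise_of_maps_to (fun x hx => Finset.mem_image_of_mem D.a hx), Finset.mul_sum]
    refine Finset.sum_congr rfl fun a' _ => ?_
    have : ∀ x2 ∈ T.filter (fun x2 => D.a x2 = a'), D.P.p x2 / D.mF ω₀ * (q.K ^ (-2 * q.α) * (s (D.a x2) / f (D.a x2)))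
        = D.P.p x2 * (q.K ^ (-2 * q.α) / D.mF ω₀ * (s a' / f a')) := by
      intro x2 hx2
      rw [(Finset.mem_filter.1 hx2).2]
      ring
    rw [Finset.sum_congr rfl this, ← Finset.sum_mul, hsa]
    ring
  -- step 4 : Cauchy-Schwarz
  have hfpos : ∀ a' ∈ T.image D.a, 0 < f a' := by
    intro a' ha'
    obtain ⟨ω, hω, rfl⟩ := Finset.mem_image.1 ha'
    rw [hf]
    exact (ent_pr_pos_iff _ _).2 ⟨ω, ⟨((hTmem ω).1 hω).2, rfl⟩, (hD.S_pos ω ((hTmem ω).1 hω).1).ne'⟩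
  have hcs := Finset.sq_sum_div_le_sum_sq_div (T.image D.a) s hfpos
  have hssum : ∑ a' ∈ T.image D.a, s a' = D.P.pr (fun ω => D.S ω ∧ D.Fb ω₀ ω) := by
    rw [hs]
    exact (ent_pr_sum_values D.P (fun ω => D.S ω ∧ D.Fb ω₀ ω) D.a (T.image D.a) (fun ω _ hω => Finset.mem_image_of_mem _ ((hTmem ω).2 hω))).symm
  have hfsum : ∑ a' ∈ T.image D.a, f a' ≤ D.mF ω₀ := by
    have e := ent_pr_sum_values D.P (fun ω => D.Fb ω₀ ω) D.a (Finset.univ.image D.a) (fun ω _ _ => Finset.mem_image_of_mem _ (Finset.mem_univ ω))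
    have e' : D.mF ω₀ = ∑ a' ∈ Finset.univ.image D.a, f a' := by rw [hf]; exact e
    rw [e']
    refine Finset.sum_le_sum_of_subset_of_nonneg (Finset.image_subset_image (Finset.subset_univ _)) fun a' _ _ => ?_
    rw [hf]
    exact ent_pr_nonneg _ _
  have hfsum0 : 0 < ∑ a' ∈ T.image D.a, f a' :=
    Finset.sum_pos hfpos ⟨D.a ω₀, Finset.mem_image_of_mem _ ((hTmem ω₀).2 ⟨h₀, rfl⟩)⟩
  rw [hssum] at hcs
  have h4 : D.P.pr (fun ω => D.S ω ∧ D.Fb ω₀ ω) ^ 2 / D.mF ω₀ ≤ ∑ a' ∈ T.image D.a, s a' ^ 2 / f a' :=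
    (div_le_div_of_nonneg_left (sq_nonneg _) hfsum0 hfsum).trans hcs
  rw [h1]
  refine le_trans ?_ h2
  rw [h3]
  calc q.K ^ (-2 * q.α) * (D.P.pr (fun ω => D.S ω ∧ D.Fb ω₀ ω) / D.mF ω₀) ^ 2
      = q.K ^ (-2 * q.α) / D.mF ω₀ * (D.P.pr (fun ω => D.S ω ∧ D.Fb ω₀ ω) ^ 2 / D.mF ω₀) := by
        rw [div_pow]
        field_simp
    _ ≤ _ := mul_le_mul_of_nonneg_left h4 (div_nonneg hKa hF0.le)

end Claimed.Agent.R257.TR
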