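import Claimed.Agent.R257.TR.BT.Abs1

/-!
# R257 / TR / BT / Abs2 : abstract block test: coverings, the three Frostman-type bounds      (architect helper176)      PAPER-FREE
Leaves L-TR-BT-COV, L-TR-BT-NU, L-TR-BT-LAM, L-TR-BT-HU.   The lemmas of `Abs1.lean` may be cited (black boxes).
-/

set_option autoImplicit false

namespace Claimed.Agent.R257.TR

open Claimed.Agent.R255 Claimed.Agent.RW
open scoped BigOperators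
open Classical

variable (D : BTD) (q : BTP)

/-- `pr` as a filtered sum -/
theorem tr_bt_c_pr_eq {Ω : Type} [Fintype Ω] (P : FLaw Ω) (E : Ω → Prop) [DecidablePred E] : P.pr E = ∑ ω with E ω, P.p ω := by
  unfold FLaw.pr
  rw [Finset.sum_filter]
  refine Finset.sum_congr rfl fun ω _ => ?_
  by_cases h : E ω <;> simp [h]

/-- disjoint label events inside an event -/
theorem tr_bt_c_pr_lab {Ω : Type} [Fintype Ω] (P : FLaw Ω) (E : Ω → Prop) (g : Ω → ℤ) (s : Finset ℤ) :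
    ∑ y ∈ s, P.pr (fun ω => E ω ∧ g ω = y) ≤ P.pr E := by
  simp only [tr_bt_c_pr_eq]
  have h1 : ∑ y ∈ s, ∑ ω with E ω ∧ g ω = y, P.p ω = ∑ ω ∈ (Finset.univ.filter fun ω => E ω ∧ g ω ∈ s), P.p ω := by
    rw [← Finset.sum_fiberwise_of_maps_to (s := Finset.univ.filter fun ω => E ω ∧ g ω ∈ s) (t := s) (g := g)
      (fun ω hω => (Finset.mem_filter.1 hω).2.2)]
    refine Finset.sum_congr rfl fun y hy => ?_
    refine Finset.sum_congr ?_ fun _ _ => rfl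
    ext ω
    simp only [Finset.mem_filter, Finset.mem_univ, true_and]
    constructor
    · rintro ⟨h1, h2⟩
      exact ⟨⟨h1, h2 ▸ hy⟩, h2⟩
    · rintro ⟨⟨h1, _⟩, h2⟩
      exact ⟨h1, h2⟩
  rw [h1]
  refine Finset.sum_le_sum_of_subset_of_nonneg ?_ fun ω _ _ => P.nonneg ω
  intro ω hω
  simp only [Finset.mem_filter, Finset.mem_univ, true_and] at hω ⊢
  exact hω.1

/-- the projection labels of the successful points of the fibre in the bin of `b` -/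
noncomputable def trBtPi (ω₀ b : D.Ω) : Finset ℤ :=
  (Finset.univ.filter fun ω'' => D.S ω'' ∧ D.Fb ω₀ ω'' ∧ D.a ω'' = D.a b).image D.pi

theorem tr_bt_c_card (hD : D.Ok q) (ω₀ b : D.Ω) : (trBtPi D ω₀ b).card ≤ ⌊q.K ^ (q.d + q.α)⌋₊ := by
  have hK : 0 < q.K := lt_of_lt_of_le one_pos hD.K_ge
  rcases (trBtPi D ω₀ b).eq_empty_or_nonempty with he | hne
  · rw [he]; simp
  obtain ⟨m, hm⟩ : ∃ m, m = D.P.pr (fun ω' => D.Φ ω' = D.Φ ω₀ ∧ D.a ω' = D.a b) := ⟨_, rfl⟩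
  have hwit : ∀ π ∈ trBtPi D ω₀ b, 0 < m ∧ q.K ^ (-q.d - q.α) * m ≤
      D.P.pr (fun ω' => (D.Φ ω' = D.Φ ω₀ ∧ D.a ω' = D.a b) ∧ D.pi ω' = π) := by
    intro π hπ
    obtain ⟨w, hw, rfl⟩ := Finset.mem_image.1 hπ
    simp only [Finset.mem_filter, Finset.mem_univ, true_and] at hw
    obtain ⟨hS, hF, ha⟩ := hw
    have hF' : D.Φ w = D.Φ ω₀ := hF
    have h3 := hD.h3 w hS
    have e1 : D.mFa w = m := by
      rw [hm]; unfold BTD.mFa; rw [hF', ha]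
    have e2 : D.mPa w = D.P.pr (fun ω' => (D.Φ ω' = D.Φ ω₀ ∧ D.a ω' = D.a b) ∧ D.pi ω' = D.pi w) := by
      unfold BTD.mPa; rw [hF', ha]
      congr 1
      funext ω'
      exact propext (and_assoc.symm)
    rw [e1, e2] at h3
    refine ⟨?_, h3⟩
    rw [hm, tr_bt_c_pr_eq]
    refine lt_of_lt_of_le (hD.S_pos w hS) ?_
    exact Finset.single_le_sum (f := fun ω => D.P.p ω) (fun ω _ => D.P.nonneg ω)
      (Finset.mem_filter.2 ⟨Finset.mem_univ _, hF', ha⟩)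
  obtain ⟨π0, hπ0⟩ := hne
  have hm0 : 0 < m := (hwit π0 hπ0).1
  have h1 : ((trBtPi D ω₀ b).card : ℝ) * (q.K ^ (-q.d - q.α) * m) ≤ m := by
    calc ((trBtPi D ω₀ b).card : ℝ) * (q.K ^ (-q.d - q.α) * m)
        = ∑ _π ∈ trBtPi D ω₀ b, q.K ^ (-q.d - q.α) * m := by rw [Finset.sum_const, nsmul_eq_mul]
      _ ≤ ∑ π ∈ trBtPi D ω₀ b, D.P.pr (fun ω' => (D.Φ ω' = D.Φ ω₀ ∧ D.a ω' = D.a b) ∧ D.pi ω' = π) :=
          Finset.sum_le_sum fun π hπ => (hwit π hπ).2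
      _ ≤ D.P.pr (fun ω' => D.Φ ω' = D.Φ ω₀ ∧ D.a ω' = D.a b) := tr_bt_c_pr_lab D.P _ D.pi _
      _ = m := hm.symm
  have h2 : ((trBtPi D ω₀ b).card : ℝ) * q.K ^ (-q.d - q.α) ≤ 1 := by
    have : (((trBtPi D ω₀ b).card : ℝ) * q.K ^ (-q.d - q.α)) * m ≤ 1 * m := by rw [one_mul, mul_assoc]; exact h1
    exact le_of_mul_le_mul_right this hm0
  have h3 : ((trBtPi D ω₀ b).card : ℝ) ≤ q.K ^ (q.d + q.α) := by
    have e : q.K ^ (-q.d - q.α) = (q.K ^ (q.d + q.α))⁻¹ := by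
      rw [← Real.rpow_neg hK.le]; congr 1; ring
    rw [e, ← div_eq_mul_inv, div_le_one (Real.rpow_pos_of_pos hK _)] at h2
    exact h2
  exact Nat.le_floor h3

/-- **LEAF L-TR-BT-COV** (H (t:large-subsets), second half).
PLAN.  For a tag `b` with `Fb`, `S` let `Πb ⊆ ℤ` be the set of the labels `pi ω''` of the successful points `ω''` of the fibre with `a ω'' = a b`.  The events `{Fb, a = a b, pi = π}`, `π ∈ Πb`, are disjoint subsets of `{Fb, a = a b}`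
and each has mass `≥ K^(-d-α) mFa b` (`h3`), `mFa b > 0`: `#Πb ≤ K^(d+α)`, so `#Πb ≤ ⌊K^(d+α)⌋₊`.
`cov b := { ρ (π - ⌈Λ₂⌉ - 1 + i - c₀) : π ∈ Πb, i ∈ range (2⌈Λ₂⌉ + 4) }`, `c₀ = yj ω₀ - sl b * y0 ω₀`  (`Finset.image` of a product; `Finset.card_image_le`).
If `(x,b) ∈ G` with witness `ω''`: `sl ω'' = sl b` (`g_sl`), `yj x - sl b y0 x = yj ω'' - sl ω'' y0 ω'' ∈ [pi ω'' - 1 - Λ₂, pi ω'' + 1 + Λ₂]` (`g_pi`), `tr_bt_proj`; choose `i = ⌊t' - (π - ⌈Λ₂⌉ - 1)⌋`.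
Other tags: `cov b = ∅`, the set is empty. -/
theorem tr_bt_cov (hD : D.Ok q) (ω₀ : D.Ω) (h₀ : D.S ω₀) :
    ∃ cov : D.Ω → Finset ℝ, (∀ b, (cov b).card ≤ q.Mq) ∧
      ∀ b, KfCov (cov b) q.rho {t | ∃ x, (x, b) ∈ D.G ω₀ ∧ t = kfProj (D.sn q b) (D.pt q ω₀ x)} := by
  have hρ : 0 < q.rho := tr_bt_rho_pos D q hD
  refine ⟨fun b => ((trBtPi D ω₀ b) ×ˢ Finset.range (2 * ⌈q.Λ₂⌉₊ + 4)).image
    (fun c => q.rho * (((c.1 : ℝ) - (⌈q.Λ₂⌉₊ : ℝ) - 1 + (c.2 : ℝ)) - ((D.yj ω₀ : ℝ) - D.sl b * D.y0 ω₀))), fun b => ?_, fun b => ?_⟩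
  · refine Finset.card_image_le.trans ?_
    rw [Finset.card_product, Finset.card_range]
    exact Nat.mul_le_mul_right _ (tr_bt_c_card D q hD ω₀ b)
  · rintro t ⟨x, hx, rfl⟩
    unfold BTD.G at hx
    simp only [Finset.mem_filter, Finset.mem_univ, true_and] at hx
    obtain ⟨hxF, hbF, hbS, w, hwS, hwF, hwa, hw0, hwj⟩ := hx
    have hsl : D.sl w = D.sl b := hD.g_sl w b (by rw [show D.Φ w = D.Φ ω₀ from hwF, show D.Φ b = D.Φ ω₀ from hbF]) hwa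
    have hpi := hD.g_pi w
    rw [hsl, hw0, hwj, abs_le] at hpi
    obtain ⟨u, hu⟩ : ∃ u, u = (D.yj x : ℝ) - D.sl b * D.y0 x := ⟨_, rfl⟩
    rw [← hu] at hpi
    have hL : q.Λ₂ ≤ (⌈q.Λ₂⌉₊ : ℝ) := Nat.le_ceil _
    obtain ⟨L, hLdef⟩ : ∃ L : ℕ, L = ⌈q.Λ₂⌉₊ := ⟨_, rfl⟩
    rw [← hLdef] at hL
    have hw0' : 0 ≤ u - ((D.pi w : ℝ) - L - 1) := by linarith [hpi.1]
    have hw1 : u - ((D.pi w : ℝ) - L - 1) ≤ 2 * L + 2 := by linarith [hpi.2]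
    have hfl : (⌊u - ((D.pi w : ℝ) - L - 1)⌋₊ : ℝ) ≤ u - ((D.pi w : ℝ) - L - 1) := Nat.floor_le hw0'
    have hfl2 : u - ((D.pi w : ℝ) - L - 1) < (⌊u - ((D.pi w : ℝ) - L - 1)⌋₊ : ℝ) + 1 := Nat.lt_floor_add_one _
    have hi : ⌊u - ((D.pi w : ℝ) - L - 1)⌋₊ < 2 * L + 4 := by
      have : (⌊u - ((D.pi w : ℝ) - L - 1)⌋₊ : ℝ) < ((2 * L + 4 : ℕ) : ℝ) := by push_cast; linarith
      exact_mod_cast this
    rw [tr_bt_proj D q hD ω₀ x b hxF, ← hu, ← hLdef]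
    refine ⟨_, Finset.mem_image.2 ⟨(D.pi w, ⌊u - ((D.pi w : ℝ) - L - 1)⌋₊), Finset.mem_product.2 ⟨?_, Finset.mem_range.2 hi⟩, rfl⟩, ?_, ?_⟩
    · exact Finset.mem_image.2 ⟨w, Finset.mem_filter.2 ⟨Finset.mem_univ _, hwS, hwF, hwa⟩, rfl⟩
    · refine mul_le_mul_of_nonneg_left ?_ hρ.le
      simp only
      linarith
    · simp only
      have : q.rho * (u - ((D.yj ω₀ : ℝ) - D.sl b * D.y0 ω₀)) ≤ q.rho * ((((D.pi w : ℝ) - L - 1 + (⌊u - ((D.pi w : ℝ) - L - 1)⌋₊ : ℝ)) - ((D.yj ω₀ : ℝ) - D.sl b * D.y0 ω₀)) + 1) :=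
        mul_le_mul_of_nonneg_left (by linarith) hρ.le
      linarith

/-- **LEAF L-TR-BT-NU**.  `∑_{|sl ω/Λ₂ - c| ≤ r} nu ω = P(S, Fb, |sl - c Λ₂| ≤ r Λ₂)/mF ω₀ ≤ Cν (r Λ₂)^κ₀` by `h7` (`r Λ₂ ≥ ρ Λ₂ = 1/(Λ₁ W) ≥ 1/(2 Λ₁ K)`), `Real.mul_rpow`. -/
theorem tr_bt_nu (hD : D.Ok q) (ω₀ : D.Ω) (h₀ : D.S ω₀) : KfFrost (D.nu ω₀) (D.sn q) (q.Cν * q.Λ₂ ^ q.κ₀) q.κ₀ q.rho := by
  intro c r hr _
  have hF : 0 < D.mF ω₀ := tr_bt_mF_pos D ω₀ (hD.S_pos ω₀ h₀)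
  have hΛ₁ : 0 < q.Λ₁ := lt_of_lt_of_le one_pos hD.Λ₁_ge
  have hΛ₂ : 0 < q.Λ₂ := lt_of_lt_of_le one_pos hD.Λ₂_ge
  have hW : 0 < q.W := lt_of_lt_of_le one_pos hD.W_ge
  have hK : 0 < q.K := lt_of_lt_of_le one_pos hD.K_ge
  have hρ : 0 < q.rho := tr_bt_rho_pos D q hD
  have hr0 : 0 < r := hρ.trans_le hr
  -- the radius
  have hrad : 1 / (2 * q.Λ₁ * q.K) ≤ r * q.Λ₂ := by
    have h1 : 1 / (q.Λ₁ * q.W) = q.rho * q.Λ₂ := by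
      unfold BTP.rho
      field_simp
    have h2 : 1 / (2 * q.Λ₁ * q.K) ≤ 1 / (q.Λ₁ * q.W) := by
      refine one_div_le_one_div_of_le (by positivity) ?_
      have := hD.W_le
      nlinarith
    calc 1 / (2 * q.Λ₁ * q.K) ≤ q.rho * q.Λ₂ := h2.trans_eq h1
      _ ≤ r * q.Λ₂ := by gcongr
  have h7 := hD.h7 ω₀ (c * q.Λ₂) (r * q.Λ₂) hrad
  have e1 : ∑ i with dist (D.sn q i) c ≤ r, D.nu ω₀ i
      = D.P.pr (fun ω => D.S ω ∧ D.Φ ω = D.Φ ω₀ ∧ |D.sl ω - c * q.Λ₂| ≤ r * q.Λ₂) / D.mF ω₀ := by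
    unfold FLaw.pr
    rw [Finset.sum_div, Finset.sum_filter]
    refine Finset.sum_congr rfl fun ω _ => ?_
    have hiff : dist (D.sn q ω) c ≤ r ↔ |D.sl ω - c * q.Λ₂| ≤ r * q.Λ₂ := by
      rw [Real.dist_eq]
      unfold BTD.sn
      have : D.sl ω / q.Λ₂ - c = (D.sl ω - c * q.Λ₂) / q.Λ₂ := by field_simp
      rw [this, abs_div, abs_of_pos hΛ₂, div_le_iff₀ hΛ₂]
    unfold BTD.nu BTD.Fb
    by_cases a1 : D.S ω <;> by_cases a2 : D.Φ ω = D.Φ ω₀ <;> by_cases a3 : dist (D.sn q ω) c ≤ r <;>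
      simp [a1, a2, a3, ← hiff]
  rw [e1, div_le_iff₀ hF]
  refine h7.trans (le_of_eq ?_)
  rw [Real.mul_rpow hr0.le hΛ₂.le]
  ring

/-- positivity of the number of end point labels of a prefix cell -/
theorem tr_bt_lam_epos (hD : D.Ok q) {k : ℕ} (hk1 : 1 ≤ k) (hkN : k ≤ q.N) : 0 < q.e k := by
  have hK : 0 < q.K := lt_of_lt_of_le one_pos hD.K_ge
  have h1 : 0 < q.K ^ (1 - (k : ℝ) / q.N) / 2 := by positivity
  exact lt_of_lt_of_le h1 (hD.e_lo k hk1 hkN)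

/-- the prefix label is a function of the end point label -/
theorem tr_bt_lam_zuniq (hD : D.Ok q) {k : ℕ} (hk1 : 1 ≤ k) (hkN : k ≤ q.N) {ω ω' : D.Ω} (h : D.y0 ω = D.y0 ω') :
    D.z k ω = D.z k ω' := by
  have he : 0 < q.e k := tr_bt_lam_epos D q hD hk1 hkN
  obtain ⟨a1, a2⟩ := hD.g_nest k ω hk1 hkN
  obtain ⟨b1, b2⟩ := hD.g_nest k ω' hk1 hkN
  rw [h] at a1 a2
  have h1 : (D.z k ω : ℝ) * q.e k < ((D.z k ω' : ℝ) + 1) * q.e k := lt_of_le_of_lt a1 b2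
  have h2 : (D.z k ω' : ℝ) * q.e k < ((D.z k ω : ℝ) + 1) * q.e k := lt_of_le_of_lt b1 a2
  have h1' : (D.z k ω : ℝ) < (D.z k ω' : ℝ) + 1 := lt_of_mul_lt_mul_right h1 he.le
  have h2' : (D.z k ω' : ℝ) < (D.z k ω : ℝ) + 1 := lt_of_mul_lt_mul_right h2 he.le
  have h1'' : D.z k ω < D.z k ω' + 1 := by exact_mod_cast h1'
  have h2'' : D.z k ω' < D.z k ω + 1 := by exact_mod_cast h2'
  omega

/-- the normalised mass of one prefix cell -/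
theorem tr_bt_lam_cell (hD : D.Ok q) (ω₀ : D.Ω) (h₀ : D.S ω₀) {k : ℕ} (hk1 : 1 ≤ k) (hkN : k ≤ q.N) (v : ℤ) :
    ∑ ω with (D.Fb ω₀ ω ∧ D.g0 ω₀ ω) ∧ D.z k ω = v, D.P.p ω / D.mF ω₀ ≤ q.K ^ (-q.d₀ * k / q.N + q.α) := by
  have hF : 0 < D.mF ω₀ := tr_bt_mF_pos D ω₀ (hD.S_pos ω₀ h₀)
  have hK : 0 < q.K := lt_of_lt_of_le one_pos hD.K_ge
  by_cases hne : ∃ ω, (D.Fb ω₀ ω ∧ D.g0 ω₀ ω) ∧ D.z k ω = v
  · obtain ⟨ω₁, ⟨hF1, ω'', hS, hF'', hy⟩, hz⟩ := hne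
    have hz'' : D.z k ω'' = v := by
      rw [tr_bt_lam_zuniq D q hD hk1 hkN hy]
      exact hz
    have hΦ : D.Φ ω'' = D.Φ ω₀ := hF''
    have hmF : D.mF ω'' = D.mF ω₀ := by
      unfold BTD.mF
      rw [hΦ]
    have h6 := hD.h6 ω'' hS k hk1 hkN
    rw [hmF] at h6
    rw [← Finset.sum_div, div_le_iff₀ hF]
    refine le_trans ?_ h6
    unfold BTD.mZ FLaw.pr
    rw [Finset.sum_filter]
    refine Finset.sum_le_sum fun ω _ => ?_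
    by_cases hω : (D.Fb ω₀ ω ∧ D.g0 ω₀ ω) ∧ D.z k ω = v
    · rw [if_pos hω, if_pos]
      exact ⟨(show D.Φ ω = D.Φ ω₀ from hω.1.1).trans hΦ.symm, hω.2.trans hz''.symm⟩
    · rw [if_neg hω]
      split_ifs
      · exact D.P.nonneg ω
      · exact le_rfl
  · rw [Finset.sum_eq_zero]
    · positivity
    · intro ω hω
      exact absurd ⟨ω, (Finset.mem_filter.1 hω).2⟩ hne

/-- an interval of labels of length `≤ e k` meets at most two prefix cells -/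
theorem tr_bt_lam_two (hD : D.Ok q) (ω₀ : D.Ω) {k : ℕ} (hk1 : 1 ≤ k) (hkN : k ≤ q.N) (c r : ℝ)
    (hl : 2 * r * q.Λ₁ * q.W ≤ q.e k) (ω : D.Ω) (hFb : D.Fb ω₀ ω) (hd : dist (D.xr q ω₀ ω) c ≤ r) :
    D.z k ω = ⌊((D.y0 ω₀ : ℝ) + (c - r) * (q.Λ₁ * q.W)) / q.e k⌋ ∨
      D.z k ω = ⌊((D.y0 ω₀ : ℝ) + (c - r) * (q.Λ₁ * q.W)) / q.e k⌋ + 1 := by
  have he : 0 < q.e k := tr_bt_lam_epos D q hD hk1 hkN
  have hB : 0 < q.Λ₁ * q.W :=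
    mul_pos (lt_of_lt_of_le one_pos hD.Λ₁_ge) (lt_of_lt_of_le one_pos hD.W_ge)
  obtain ⟨a1, a2⟩ := hD.g_nest k ω hk1 hkN
  unfold BTD.xr BTD.pt at hd
  rw [if_pos hFb, Real.dist_eq, abs_le] at hd
  simp only [BTP.tx] at hd
  obtain ⟨d1, d2⟩ := hd
  have d1' : (c - r) * (q.Λ₁ * q.W) ≤ (D.y0 ω : ℝ) - D.y0 ω₀ := by
    have : c - r ≤ ((D.y0 ω : ℝ) - D.y0 ω₀) / (q.Λ₁ * q.W) := by
      rw [div_eq_mul_one_div]; linarith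
    exact (le_div_iff₀ hB).1 this
  have d2' : (D.y0 ω : ℝ) - D.y0 ω₀ ≤ (c + r) * (q.Λ₁ * q.W) := by
    have : ((D.y0 ω : ℝ) - D.y0 ω₀) / (q.Λ₁ * q.W) ≤ c + r := by
      rw [div_eq_mul_one_div]; linarith
    exact (div_le_iff₀ hB).1 this
  set A : ℝ := (D.y0 ω₀ : ℝ) + (c - r) * (q.Λ₁ * q.W) with hA
  have f1 : ((⌊A / q.e k⌋ : ℤ) : ℝ) * q.e k ≤ A := (le_div_iff₀ he).1 (Int.floor_le _)
  have f2 : A < (((⌊A / q.e k⌋ : ℤ) : ℝ) + 1) * q.e k := (div_lt_iff₀ he).1 (Int.lt_floor_add_one _)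
  have y1 : A ≤ (D.y0 ω : ℝ) := by rw [hA]; linarith
  have y2 : (D.y0 ω : ℝ) ≤ A + q.e k := by
    have : (c + r) * (q.Λ₁ * q.W) = (c - r) * (q.Λ₁ * q.W) + 2 * r * q.Λ₁ * q.W := by ring
    rw [hA]; linarith
  have g1 : (D.z k ω : ℝ) * q.e k < (((⌊A / q.e k⌋ : ℤ) : ℝ) + 2) * q.e k := by
    have : (((⌊A / q.e k⌋ : ℤ) : ℝ) + 2) * q.e k = (((⌊A / q.e k⌋ : ℤ) : ℝ) + 1) * q.e k + q.e k := by ring
    linarith
  have g2 : ((⌊A / q.e k⌋ : ℤ) : ℝ) * q.e k < ((D.z k ω : ℝ) + 1) * q.e k := by linarith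
  have g1' : (D.z k ω : ℝ) < ((⌊A / q.e k⌋ : ℤ) : ℝ) + 2 := lt_of_mul_lt_mul_right g1 he.le
  have g2' : ((⌊A / q.e k⌋ : ℤ) : ℝ) < (D.z k ω : ℝ) + 1 := lt_of_mul_lt_mul_right g2 he.le
  have g1'' : D.z k ω < ⌊A / q.e k⌋ + 2 := by exact_mod_cast g1'
  have g2'' : ⌊A / q.e k⌋ < D.z k ω + 1 := by exact_mod_cast g2'
  omega

/-- the mass of an interval of labels of length `≤ e k` -/
theorem tr_bt_lam_lev (hD : D.Ok q) (ω₀ : D.Ω) (h₀ : D.S ω₀) {k : ℕ} (hk1 : 1 ≤ k) (hkN : k ≤ q.N) (c r : ℝ)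
    (hl : 2 * r * q.Λ₁ * q.W ≤ q.e k) :
    ∑ ω with dist (D.xr q ω₀ ω) c ≤ r, D.lam ω₀ ω ≤ 2 * q.K ^ (-q.d₀ * k / q.N + q.α) := by
  have hF : 0 < D.mF ω₀ := tr_bt_mF_pos D ω₀ (hD.S_pos ω₀ h₀)
  set m₀ : ℤ := ⌊((D.y0 ω₀ : ℝ) + (c - r) * (q.Λ₁ * q.W)) / q.e k⌋ with hm₀
  have hpt : ∀ ω, (if dist (D.xr q ω₀ ω) c ≤ r then D.lam ω₀ ω else 0)
      ≤ (if (D.Fb ω₀ ω ∧ D.g0 ω₀ ω) ∧ D.z k ω = m₀ then D.P.p ω / D.mF ω₀ else 0)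
        + (if (D.Fb ω₀ ω ∧ D.g0 ω₀ ω) ∧ D.z k ω = m₀ + 1 then D.P.p ω / D.mF ω₀ else 0) := by
    intro ω
    have hp : 0 ≤ D.P.p ω / D.mF ω₀ := div_nonneg (D.P.nonneg ω) hF.le
    have hn1 : 0 ≤ (if (D.Fb ω₀ ω ∧ D.g0 ω₀ ω) ∧ D.z k ω = m₀ then D.P.p ω / D.mF ω₀ else 0) := by
      split_ifs
      · exact hp
      · exact le_rfl
    have hn2 : 0 ≤ (if (D.Fb ω₀ ω ∧ D.g0 ω₀ ω) ∧ D.z k ω = m₀ + 1 then D.P.p ω / D.mF ω₀ else 0) := by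
      split_ifs
      · exact hp
      · exact le_rfl
    by_cases hd : dist (D.xr q ω₀ ω) c ≤ r
    · rw [if_pos hd]
      unfold BTD.lam
      by_cases hc : D.Fb ω₀ ω ∧ D.g0 ω₀ ω
      · rw [if_pos hc]
        rcases tr_bt_lam_two D q hD ω₀ hk1 hkN c r hl ω hc.1 hd with hz | hz
        · rw [if_pos (⟨hc, hz⟩ : (D.Fb ω₀ ω ∧ D.g0 ω₀ ω) ∧ D.z k ω = m₀)]
          linarith
        · rw [if_pos (⟨hc, hz⟩ : (D.Fb ω₀ ω ∧ D.g0 ω₀ ω) ∧ D.z k ω = m₀ + 1)]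
          linarith
      · rw [if_neg hc]
        exact add_nonneg hn1 hn2
    · rw [if_neg hd]
      exact add_nonneg hn1 hn2
  rw [Finset.sum_filter]
  refine le_trans (Finset.sum_le_sum fun ω _ => hpt ω) ?_
  rw [Finset.sum_add_distrib, ← Finset.sum_filter, ← Finset.sum_filter]
  have c1 := tr_bt_lam_cell D q hD ω₀ h₀ hk1 hkN m₀
  have c2 := tr_bt_lam_cell D q hD ω₀ h₀ hk1 hkN (m₀ + 1)
  linarith

/-- the numerical comparison of the level with the radius -/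
theorem tr_bt_lam_num (hD : D.Ok q) {k : ℕ} (hkN : k ≤ q.N) {r : ℝ} (hr : q.rho ≤ r)
    (h : k = q.N ∨ q.e (k + 1) < 2 * r * q.Λ₁ * q.W) :
    q.K ^ (-(k : ℝ) / q.N) ≤ 8 * q.K ^ (1 / (q.N : ℝ)) * q.Λ₁ * q.Λ₂ * r := by
  have hK1 : 1 ≤ q.K := hD.K_ge
  have hK : 0 < q.K := lt_of_lt_of_le one_pos hK1
  have hW : 0 < q.W := lt_of_lt_of_le one_pos hD.W_ge
  have hΛ₁ : 0 < q.Λ₁ := lt_of_lt_of_le one_pos hD.Λ₁_ge
  have hΛ₂ : 0 < q.Λ₂ := lt_of_lt_of_le one_pos hD.Λ₂_ge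
  have hN : (0 : ℝ) < q.N := by
    have := hD.N_pos
    exact_mod_cast (by omega : 0 < q.N)
  have hr0 : 0 < r := lt_of_lt_of_le (tr_bt_rho_pos D q hD) hr
  have hKN : 1 ≤ q.K ^ (1 / (q.N : ℝ)) := Real.one_le_rpow hK1 (by positivity)
  by_cases hk : k = q.N
  · rw [hk, neg_div, div_self hN.ne', Real.rpow_neg_one]
    have h1 : 1 / (q.Λ₁ * q.Λ₂ * (2 * q.K)) ≤ r := by
      refine le_trans ?_ hr
      unfold BTP.rho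
      exact one_div_le_one_div_of_le (by positivity) (mul_le_mul_of_nonneg_left hD.W_le (by positivity))
    have h2 : 1 ≤ r * (q.Λ₁ * q.Λ₂ * (2 * q.K)) := (div_le_iff₀ (by positivity)).1 h1
    rw [inv_eq_one_div, div_le_iff₀ hK]
    have h3 : 0 < q.Λ₁ * q.Λ₂ * r * q.K := by positivity
    have h4 : q.Λ₁ * q.Λ₂ * r * q.K ≤ q.K ^ (1 / (q.N : ℝ)) * (q.Λ₁ * q.Λ₂ * r * q.K) :=
      le_mul_of_one_le_left h3.le hKN
    nlinarith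
  · have hlt : q.e (k + 1) < 2 * r * q.Λ₁ * q.W := by
      rcases h with h | h
      · exact absurd h hk
      · exact h
    have hk' : k + 1 ≤ q.N := by omega
    have h1 := hD.e_lo (k + 1) (by omega) hk'
    have h2 : 2 * r * q.Λ₁ * q.W ≤ 2 * r * q.Λ₁ * (2 * q.K) :=
      mul_le_mul_of_nonneg_left hD.W_le (by positivity)
    have h3 : q.K ^ (1 - ((k + 1 : ℕ) : ℝ) / q.N) = q.K * q.K ^ (-((k + 1 : ℕ) : ℝ) / q.N) := by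
      rw [show (1 : ℝ) - ((k + 1 : ℕ) : ℝ) / q.N = 1 + -((k + 1 : ℕ) : ℝ) / q.N by ring, Real.rpow_add hK, Real.rpow_one]
    have h4 : q.K * q.K ^ (-((k + 1 : ℕ) : ℝ) / q.N) < q.K * (8 * r * q.Λ₁) := by
      rw [← h3]
      linarith
    have h5 : q.K ^ (-((k + 1 : ℕ) : ℝ) / q.N) < 8 * r * q.Λ₁ := lt_of_mul_lt_mul_left h4 hK.le
    have h6 : q.K ^ (-(k : ℝ) / q.N) = q.K ^ (-((k + 1 : ℕ) : ℝ) / q.N) * q.K ^ (1 / (q.N : ℝ)) := by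
      rw [← Real.rpow_add hK]
      congr 1
      push_cast
      ring
    rw [h6]
    have h7 : q.K ^ (-((k + 1 : ℕ) : ℝ) / q.N) * q.K ^ (1 / (q.N : ℝ)) ≤ 8 * r * q.Λ₁ * q.K ^ (1 / (q.N : ℝ)) :=
      mul_le_mul_of_nonneg_right h5.le (by positivity)
    have h8 : 8 * r * q.Λ₁ * q.K ^ (1 / (q.N : ℝ)) ≤ (8 * r * q.Λ₁ * q.K ^ (1 / (q.N : ℝ))) * q.Λ₂ :=
      le_mul_of_one_le_right (by positivity) hD.Λ₂_ge
    calc _ ≤ _ := h7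
      _ ≤ _ := h8
      _ = _ := by ring

/-- **LEAF L-TR-BT-LAM**.  Frostman bound of the reference law, exponent `d₀`.
PLAN.  Fix `c`, `ρ ≤ r ≤ 1`; `ℓ := 2 r Λ₁ W`.  Only points of the fibre with a successful label `y0` count, and `|xr ω - c| ≤ r` puts `y0 ω` in a closed interval `I` of length `ℓ`.
(i) If `ℓ ≤ e k` for some `1 ≤ k ≤ N`, take the LARGEST such `k`.  By `g_nest` the labels `z k ω` of the points with `y0 ω ∈ I` take at most two values; for each value realised by a counted point, the witness `ω''` of `g0` has the same `z k`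
 (`g_nest`: `z k` is a function of `y0`), so the mass is `≤ mZ k ω''/mF ω₀ ≤ K^(-d₀ k/N + α)` (`h6`).  Total `≤ 2 K^α (K^(-k/N))^d₀`.
 `k = N`: `K⁻¹ ≤ 2 Λ₁ Λ₂ r` since `r ≥ ρ ≥ 1/(2 Λ₁ Λ₂ K)`.   `k < N`: `K^(1-(k+1)/N)/2 ≤ e (k+1) < ℓ ≤ 4 r Λ₁ K`, so `K^(-k/N) < 8 K^(1/N) Λ₁ r`.
(ii) Otherwise `e 1 < ℓ`, so `1 < 8 K^(1/N) Λ₁ r`, and the total mass is `≤ 1` (`tr_bt_lam_sum`). -/
theorem tr_bt_lam (hD : D.Ok q) (ω₀ : D.Ω) (h₀ : D.S ω₀) : KfFrost (D.lam ω₀) (D.xr q ω₀) q.Cl q.d₀ q.rho := by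
  intro c r hr hr1
  have hK1 : 1 ≤ q.K := hD.K_ge
  have hK : 0 < q.K := lt_of_lt_of_le one_pos hK1
  have hΛ₁ : 0 < q.Λ₁ := lt_of_lt_of_le one_pos hD.Λ₁_ge
  have hΛ₂ : 0 < q.Λ₂ := lt_of_lt_of_le one_pos hD.Λ₂_ge
  have hN : (0 : ℝ) < q.N := by
    have := hD.N_pos
    exact_mod_cast (by omega : 0 < q.N)
  have hr0 : 0 < r := lt_of_lt_of_le (tr_bt_rho_pos D q hD) hr
  -- the largest admissible level
  set Pk : ℕ → Prop := fun k => k = 0 ∨ 2 * r * q.Λ₁ * q.W ≤ q.e k with hPk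
  set k : ℕ := Nat.findGreatest Pk q.N with hk
  have hkP : Pk k := Nat.findGreatest_spec (P := Pk) (Nat.zero_le q.N) (Or.inl rfl)
  have hkN : k ≤ q.N := Nat.findGreatest_le q.N
  have hmax : k = q.N ∨ q.e (k + 1) < 2 * r * q.Λ₁ * q.W := by
    by_cases hkk : k = q.N
    · exact Or.inl hkk
    · right
      have h1 : ¬ Pk (k + 1) := Nat.findGreatest_is_greatest (P := Pk) (Nat.lt_succ_self k) (by omega)
      by_contra hcon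
      exact h1 (Or.inr (not_lt.1 hcon))
  have hnum := tr_bt_lam_num D q hD hkN hr hmax
  -- the mass
  have hmass : ∑ ω with dist (D.xr q ω₀ ω) c ≤ r, D.lam ω₀ ω ≤ 2 * q.K ^ (-q.d₀ * k / q.N + q.α) := by
    by_cases hk0 : k = 0
    · have h1 : ∑ ω with dist (D.xr q ω₀ ω) c ≤ r, D.lam ω₀ ω ≤ ∑ ω, D.lam ω₀ ω :=
        Finset.sum_le_sum_of_subset_of_nonneg (Finset.filter_subset _ _) (fun ω _ _ => tr_bt_lam_nonneg D ω₀ ω)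
      have h2 := tr_bt_lam_sum D ω₀
      have h3 : 1 ≤ q.K ^ (-q.d₀ * k / q.N + q.α) := by
        rw [hk0]
        refine Real.one_le_rpow hK1 ?_
        simp only [Nat.cast_zero, mul_zero, zero_div, zero_add]
        exact hD.α_pos.le
      linarith
    · have hl : 2 * r * q.Λ₁ * q.W ≤ q.e k := by
        rcases hkP with h | h
        · exact absurd h hk0
        · exact h
      exact tr_bt_lam_lev D q hD ω₀ h₀ (by omega) hkN c r hl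
  refine le_trans hmass ?_
  have e1 : q.K ^ (-q.d₀ * k / q.N + q.α) = q.K ^ q.α * (q.K ^ (-(k : ℝ) / q.N)) ^ q.d₀ := by
    rw [← Real.rpow_mul hK.le, ← Real.rpow_add hK]
    congr 1
    ring
  have e2 : (q.K ^ (-(k : ℝ) / q.N)) ^ q.d₀ ≤ (8 * q.K ^ (1 / (q.N : ℝ)) * q.Λ₁ * q.Λ₂ * r) ^ q.d₀ :=
    Real.rpow_le_rpow (by positivity) hnum hD.d₀_pos.le
  have e3 : (8 * q.K ^ (1 / (q.N : ℝ)) * q.Λ₁ * q.Λ₂ * r) ^ q.d₀ = (8 * q.K ^ (1 / (q.N : ℝ)) * q.Λ₁ * q.Λ₂) ^ q.d₀ * r ^ q.d₀ :=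
    Real.mul_rpow (by positivity) hr0.le
  rw [e1]
  unfold BTP.Cl
  rw [e3] at e2
  have e4 : q.K ^ q.α * (q.K ^ (-(k : ℝ) / q.N)) ^ q.d₀
      ≤ q.K ^ q.α * ((8 * q.K ^ (1 / (q.N : ℝ)) * q.Λ₁ * q.Λ₂) ^ q.d₀ * r ^ q.d₀) :=
    mul_le_mul_of_nonneg_left e2 (by positivity)
  calc 2 * (q.K ^ q.α * (q.K ^ (-(k : ℝ) / q.N)) ^ q.d₀)
      ≤ 2 * (q.K ^ q.α * ((8 * q.K ^ (1 / (q.N : ℝ)) * q.Λ₁ * q.Λ₂) ^ q.d₀ * r ^ q.d₀)) := by linarith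
    _ = _ := by ring

/-- integers `n` with `|n t - c| ≤ r`, `r ≤ t`: at most three consecutive values -/
theorem tr_bt_h_int (t c r : ℝ) (ht : 0 < t) (hr : r ≤ t) : ∃ A : ℤ, ∀ n : ℤ, |(n : ℝ) * t - c| ≤ r → A ≤ n ∧ n ≤ A + 2 := by
  refine ⟨⌈(c - r) / t⌉, fun n hn => ?_⟩
  rw [abs_le] at hn
  constructor
  · rw [Int.ceil_le, div_le_iff₀ ht]
    linarith [hn.1]
  · have h1 : (c - r) / t ≤ (⌈(c - r) / t⌉ : ℝ) := Int.le_ceil _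
    have h2 : (n : ℝ) ≤ (c - r) / t + 2 := by
      have : (n : ℝ) * t ≤ ((c - r) / t + 2) * t := by
        rw [add_mul, div_mul_cancel₀ _ ht.ne']
        linarith [hn.2]
      exact le_of_mul_le_mul_right this ht
    have h3 : (n : ℝ) ≤ ((⌈(c - r) / t⌉ + 2 : ℤ) : ℝ) := by push_cast; linarith
    exact_mod_cast h3

/-- the counted points -/
noncomputable def trBtCn (ω₀ : D.Ω) (z : ℝ × ℝ) : Finset D.Ω :=
  Finset.univ.filter fun x => dist (D.pt q ω₀ x) z ≤ q.rho ∧ D.Fb ω₀ x ∧ D.gY ω₀ x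

theorem tr_bt_h_lhs (ω₀ : D.Ω) (z : ℝ × ℝ) :
    ∑ x with dist (D.pt q ω₀ x) z ≤ q.rho, D.mu ω₀ x = ∑ x ∈ trBtCn D q ω₀ z, D.P.p x / D.mF ω₀ := by
  unfold trBtCn BTD.mu
  rw [← Finset.sum_filter, Finset.filter_filter]

theorem tr_bt_h_coord (hD : D.Ok q) (ω₀ : D.Ω) (z : ℝ × ℝ) (x : D.Ω) (hx : x ∈ trBtCn D q ω₀ z) :
    |(((D.y0 x - D.y0 ω₀ : ℤ) : ℝ)) * q.tx - z.1| ≤ q.rho ∧ |(((D.yj x - D.yj ω₀ : ℤ) : ℝ)) * q.rho - z.2| ≤ q.rho := by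
  unfold trBtCn at hx
  simp only [Finset.mem_filter, Finset.mem_univ, true_and] at hx
  obtain ⟨hd, hF, _⟩ := hx
  unfold BTD.pt at hd
  rw [if_pos hF, Prod.dist_eq, max_le_iff, Real.dist_eq, Real.dist_eq] at hd
  push_cast
  exact hd

theorem tr_bt_h_card (hD : D.Ok q) (ω₀ : D.Ω) (z : ℝ × ℝ) :
    ((trBtCn D q ω₀ z).image fun x => (D.y0 x, D.yj x)).card ≤ 9 := by
  have hρ : 0 < q.rho := tr_bt_rho_pos D q hD
  have htx : q.tx = q.Λ₂ * q.rho := tr_bt_tx_eq D q hD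
  have hle : q.rho ≤ q.tx := by
    rw [htx]; nlinarith [hD.Λ₂_ge]
  obtain ⟨A, hA⟩ := tr_bt_h_int q.tx z.1 q.rho (lt_of_lt_of_le hρ hle) hle
  obtain ⟨B, hB⟩ := tr_bt_h_int q.rho z.2 q.rho hρ le_rfl
  have hsub : ((trBtCn D q ω₀ z).image fun x => (D.y0 x, D.yj x)) ⊆
      Finset.Icc (D.y0 ω₀ + A) (D.y0 ω₀ + A + 2) ×ˢ Finset.Icc (D.yj ω₀ + B) (D.yj ω₀ + B + 2) := by
    intro y hy
    obtain ⟨x, hx, rfl⟩ := Finset.mem_image.1 hy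
    obtain ⟨c1, c2⟩ := tr_bt_h_coord D q hD ω₀ z x hx
    have a1 := hA _ c1
    have b1 := hB _ c2
    simp only [Finset.mem_product, Finset.mem_Icc]
    omega
  refine (Finset.card_le_card hsub).trans ?_
  rw [Finset.card_product, Int.card_Icc, Int.card_Icc]
  have e1 : D.y0 ω₀ + A + 2 + 1 - (D.y0 ω₀ + A) = 3 := by ring
  have e2 : D.yj ω₀ + B + 2 + 1 - (D.yj ω₀ + B) = 3 := by ring
  rw [e1, e2]
  decide

theorem tr_bt_h_upper (hD : D.Ok q) (ω₀ : D.Ω) (h₀ : D.S ω₀) (z : ℝ × ℝ) :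
    ∑ x ∈ trBtCn D q ω₀ z, D.P.p x / D.mF ω₀ ≤ 9 * q.K ^ (-2 * q.d + q.α) := by
  have hK : 0 < q.K := lt_of_lt_of_le one_pos hD.K_ge
  have hF : 0 < D.mF ω₀ := tr_bt_mF_pos D ω₀ (hD.S_pos ω₀ h₀)
  rw [← Finset.sum_fiberwise_of_maps_to (s := trBtCn D q ω₀ z) (t := (trBtCn D q ω₀ z).image fun x => (D.y0 x, D.yj x))
    (g := fun x => (D.y0 x, D.yj x)) (fun x hx => Finset.mem_image_of_mem _ hx)]
  have hone : ∀ y ∈ (trBtCn D q ω₀ z).image fun x => (D.y0 x, D.yj x),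
      ∑ x ∈ trBtCn D q ω₀ z with (D.y0 x, D.yj x) = y, D.P.p x / D.mF ω₀ ≤ q.K ^ (-2 * q.d + q.α) := by
    intro y hy
    obtain ⟨x₀, hx₀, rfl⟩ := Finset.mem_image.1 hy
    have hx₀' := hx₀
    unfold trBtCn at hx₀'
    simp only [Finset.mem_filter, Finset.mem_univ, true_and] at hx₀'
    obtain ⟨_, _, w, hwS, hwF, hw0, hwj⟩ := hx₀'
    have hwF' : D.Φ w = D.Φ ω₀ := hwF
    have h1 := hD.h1u w hwS
    have e1 : D.mF w = D.mF ω₀ := by unfold BTD.mF; rw [hwF']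
    rw [e1] at h1
    rw [← Finset.sum_div, div_le_iff₀ hF]
    refine le_trans ?_ h1
    unfold BTD.mY
    rw [tr_bt_c_pr_eq]
    refine Finset.sum_le_sum_of_subset_of_nonneg ?_ fun ω _ _ => D.P.nonneg ω
    intro x hx
    unfold trBtCn at hx
    simp only [Finset.mem_filter, Finset.mem_univ, true_and, Prod.mk.injEq] at hx ⊢
    obtain ⟨⟨_, hxF, _⟩, h0, hj⟩ := hx
    exact ⟨by rw [hwF']; exact hxF, by rw [hw0, h0], by rw [hwj, hj]⟩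
  calc ∑ y ∈ (trBtCn D q ω₀ z).image fun x => (D.y0 x, D.yj x),
        ∑ x ∈ trBtCn D q ω₀ z with (D.y0 x, D.yj x) = y, D.P.p x / D.mF ω₀
      ≤ ∑ _y ∈ (trBtCn D q ω₀ z).image fun x => (D.y0 x, D.yj x), q.K ^ (-2 * q.d + q.α) := Finset.sum_le_sum hone
    _ = (((trBtCn D q ω₀ z).image fun x => (D.y0 x, D.yj x)).card : ℝ) * q.K ^ (-2 * q.d + q.α) := by
        rw [Finset.sum_const, nsmul_eq_mul]
    _ ≤ 9 * q.K ^ (-2 * q.d + q.α) := by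
        refine mul_le_mul_of_nonneg_right ?_ (Real.rpow_nonneg hK.le _)
        exact_mod_cast tr_bt_h_card D q hD ω₀ z

theorem tr_bt_h_lower (hD : D.Ok q) (ω₀ : D.Ω) (h₀ : D.S ω₀) (z : ℝ × ℝ) (x₀ : D.Ω) (hx₀ : x₀ ∈ trBtCn D q ω₀ z) :
    q.K ^ (-q.d - q.α) ≤ ∑ j with dist (D.xr q ω₀ j) z.1 ≤ 1 * q.rho, D.lam ω₀ j := by
  have hF : 0 < D.mF ω₀ := tr_bt_mF_pos D ω₀ (hD.S_pos ω₀ h₀)
  have hx₀' := hx₀
  unfold trBtCn at hx₀'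
  simp only [Finset.mem_filter, Finset.mem_univ, true_and] at hx₀'
  obtain ⟨hd, hxF, w, hwS, hwF, hw0, hwj⟩ := hx₀'
  have hwF' : D.Φ w = D.Φ ω₀ := hwF
  have h4 := hD.h4 w hwS
  have e1 : D.mF w = D.mF ω₀ := by unfold BTD.mF; rw [hwF']
  rw [e1] at h4
  have h5 : q.K ^ (-q.d - q.α) ≤ D.m0 w / D.mF ω₀ := by rwa [le_div_iff₀ hF]
  refine h5.trans ?_
  unfold BTD.m0
  rw [tr_bt_c_pr_eq, Finset.sum_div]
  have hd1 : dist (D.pt q ω₀ x₀).1 z.1 ≤ q.rho := by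
    rw [Prod.dist_eq] at hd
    exact (le_max_left _ _).trans hd
  have hmem : ∀ j, (D.Φ j = D.Φ w ∧ D.y0 j = D.y0 w) → D.Fb ω₀ j ∧ D.g0 ω₀ j ∧ dist (D.xr q ω₀ j) z.1 ≤ 1 * q.rho := by
    rintro j ⟨hj1, hj2⟩
    have hjF : D.Fb ω₀ j := by
      show D.Φ j = D.Φ ω₀
      rw [hj1, hwF']
    refine ⟨hjF, ⟨w, hwS, hwF, hj2.symm⟩, ?_⟩
    have : D.xr q ω₀ j = (D.pt q ω₀ x₀).1 := by
      unfold BTD.xr BTD.pt
      rw [if_pos hjF, if_pos hxF, hj2, hw0]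
    rw [this, one_mul]
    exact hd1
  calc ∑ j with D.Φ j = D.Φ w ∧ D.y0 j = D.y0 w, D.P.p j / D.mF ω₀
      = ∑ j with D.Φ j = D.Φ w ∧ D.y0 j = D.y0 w, D.lam ω₀ j := by
        refine Finset.sum_congr rfl fun j hj => ?_
        obtain ⟨a1, a2, _⟩ := hmem j (Finset.mem_filter.1 hj).2
        unfold BTD.lam
        rw [if_pos ⟨a1, a2⟩]
    _ ≤ ∑ j with dist (D.xr q ω₀ j) z.1 ≤ 1 * q.rho, D.lam ω₀ j := by
        refine Finset.sum_le_sum_of_subset_of_nonneg ?_ fun j _ _ => tr_bt_lam_nonneg D ω₀ j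
        intro j hj
        exact Finset.mem_filter.2 ⟨Finset.mem_univ _, (hmem j (Finset.mem_filter.1 hj).2).2.2⟩

/-- **LEAF L-TR-BT-HU**.  The hypothesis `hU` of `ex_W1`.
PLAN.  A counted point `x` (`Fb`, `gY`, `dist (pt x) z ≤ ρ`) has `y0 x` in a closed interval of length `2ρ/τx = 2/Λ₂ ≤ 2` and `yj x` in a closed interval of length `2`: at most `9` pair labels; each successful pair label has mass
`mY ω''/mF ω₀ ≤ K^(-2d+α)` (`h1u`).  So LHS `≤ 9 K^(-2d+α)`.  If there is no counted point LHS `= 0`.  Otherwise let `ω''` be the witness of one counted point `x`: all `ω` with `Fb`, `y0 ω = y0 x` satisfy `g0`, `xr ω = (pt x).1`,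
`dist (xr ω) z.1 ≤ ρ`, so the sum on the right is `≥ m0 ω''/mF ω₀ ≥ K^(-d-α)` (`h4`). -/
theorem tr_bt_hU (hD : D.Ok q) (ω₀ : D.Ω) (h₀ : D.S ω₀) (z : ℝ × ℝ) :
    ∑ x with dist (D.pt q ω₀ x) z ≤ q.rho, D.mu ω₀ x
      ≤ 9 * q.K ^ (-q.d + 2 * q.α) * ∑ j with dist (D.xr q ω₀ j) z.1 ≤ 1 * q.rho, D.lam ω₀ j := by
  have hK : 0 < q.K := lt_of_lt_of_le one_pos hD.K_ge
  have hR : 0 ≤ ∑ j with dist (D.xr q ω₀ j) z.1 ≤ 1 * q.rho, D.lam ω₀ j :=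
    Finset.sum_nonneg fun j _ => tr_bt_lam_nonneg D ω₀ j
  have hc : 0 ≤ 9 * q.K ^ (-q.d + 2 * q.α) := mul_nonneg (by norm_num) (Real.rpow_nonneg hK.le _)
  rw [tr_bt_h_lhs]
  rcases (trBtCn D q ω₀ z).eq_empty_or_nonempty with he | ⟨x₀, hx₀⟩
  · rw [he, Finset.sum_empty]
    exact mul_nonneg hc hR
  · refine (tr_bt_h_upper D q hD ω₀ h₀ z).trans ?_
    have e : q.K ^ (-2 * q.d + q.α) = q.K ^ (-q.d + 2 * q.α) * q.K ^ (-q.d - q.α) := by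
      rw [← Real.rpow_add hK]; congr 1; ring
    rw [e, ← mul_assoc]
    exact mul_le_mul_of_nonneg_left (tr_bt_h_lower D q hD ω₀ h₀ z x₀ hx₀) hc

end Claimed.Agent.R257.TR
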