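import Claimed.Agent.R257.TR.BT.Abs2

/-!
# R257 / TR / BT / AbsMain : the abstract block test      (architect helper176)      PAPER-FREE, glue
-/

set_option autoImplicit false

namespace Claimed.Agent.R257.TR

open Claimed.Agent.R255 Claimed.Agent.RW
open scoped BigOperators
open Classical

/-- monotonicity of the Frostman condition in the constant -/
theorem tr_bt_frost_mono {ι Y : Type} [Fintype ι] [PseudoMetricSpace Y] {w : ι → ℝ} {pos : ι → Y} {C C' e ρ : ℝ} (hρ : 0 < ρ)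
    (h : KfFrost w pos C e ρ) (hC : C ≤ C') : KfFrost w pos C' e ρ := by
  intro z r hr hr1
  refine (h z r hr hr1).trans ?_
  have : 0 ≤ r ^ e := Real.rpow_nonneg (hρ.le.trans hr) _
  gcongr

/-- **the abstract block test** -/
theorem tr_bt_abs (D : BTD) (q : BTP) (χ ρ₁ p : ℝ) (hp : 0 < p) (hD : D.Ok q) (hW : W1At q.d₀ q.κ₀ q.d χ ρ₁)
    (hn : BTNum q χ ρ₁ p) : D.P.pr D.S ≤ p := by
  by_contra hcon
  have hex : ∃ ω₀, D.S ω₀ ∧ p * D.mF ω₀ < D.P.pr (fun ω => D.S ω ∧ D.Fb ω₀ ω) := by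
    by_contra hne
    apply hcon
    refine tr_bt_avg D p hp.le fun ω₀ h₀ => ?_
    by_contra hlt
    exact hne ⟨ω₀, h₀, not_le.1 hlt⟩
  obtain ⟨ω₀, h₀, hbig⟩ := hex
  have hF : 0 < D.mF ω₀ := tr_bt_mF_pos D ω₀ (hD.S_pos ω₀ h₀)
  have hρ : 0 < q.rho := tr_bt_rho_pos D q hD
  have hK : 0 < q.K := lt_of_lt_of_le one_pos hD.K_ge
  have hratio : p < D.P.pr (fun ω => D.S ω ∧ D.Fb ω₀ ω) / D.mF ω₀ := by
    rw [lt_div_iff₀ hF]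
    exact hbig
  obtain ⟨cov, hcard, hcov⟩ := tr_bt_cov D q hD ω₀ h₀
  have hmass : q.rho ^ χ ≤ ∑ x ∈ D.G ω₀, D.mu ω₀ x.1 * D.nu ω₀ x.2 := by
    refine hn.n3.trans (le_trans ?_ (tr_bt_mass D q hD ω₀ h₀))
    have : 0 ≤ q.K ^ (-2 * q.α) := Real.rpow_nonneg hK.le _
    gcongr
  have hT : ExTest q.rho χ 1 q.κ₀ (D.mu ω₀) (D.nu ω₀) (D.pt q ω₀) (D.sn q) (D.G ω₀) q.Mq :=
    ⟨tr_bt_mu_nonneg D ω₀, tr_bt_nu_nonneg D ω₀, tr_bt_mu_sum D ω₀, tr_bt_nu_sum D ω₀, tr_bt_pt_bd D q hD ω₀, tr_bt_sn_bd D q hD,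
      tr_bt_frost_mono hρ (tr_bt_nu D q hD ω₀ h₀) hn.n2, hmass, cov, hcard, hcov⟩
  have hfin := hW q.rho hρ hn.n1 D.Ω D.Ω D.Ω (D.mu ω₀) (D.nu ω₀) (D.pt q ω₀) (D.sn q) (D.G ω₀) q.Mq (D.lam ω₀) (D.xr q ω₀) hT
    (tr_bt_lam_nonneg D ω₀) (tr_bt_frost_mono hρ (tr_bt_lam D q hD ω₀ h₀) hn.n4) (fun z => by
      refine (tr_bt_hU D q hD ω₀ h₀ z).trans ?_
      have : 0 ≤ ∑ j with dist (D.xr q ω₀ j) z.1 ≤ 1 * q.rho, D.lam ω₀ j :=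
        Finset.sum_nonneg fun j _ => tr_bt_lam_nonneg D ω₀ j
      exact mul_le_mul_of_nonneg_right hn.n5 this)
  exact absurd hfin (not_le.2 hn.n6)

end Claimed.Agent.R257.TR
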