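import Claimed.Agent.R257.TR.Good
import Claimed.Agent.RW.Export

/-!
# R257 / TR / BT / Defs : the finite part of the projection block test (H t:block-test, l.583-690), abstract language      (architect helper176, post BP-257-TR-BT)

GOAL (`BT/Main.lean`): `tr_bt_fin : TSeqOk M R₀ c₁ Cτ → BTFin M`.

ROUTE.  1. `BTD` = ONE finite law with the labels used by the test: fibre label `Φ = (C, D₀)`, alternative bin `a`, end point labels `y0 = Z_0`, `yj = Z_j`, projection label `pi`, prefix labels `z k` of the coordinate `0`,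
approximate slope `sl = ã_j` and the success event `S`.  `BTD.Ok q` = the mass inequalities (t:fiber-masses) at successful points + elementary geometry of the labels + the angular bound (t:angular-probability).
2. `tr_bt_abs` (`BT/Abs*.lean`, PAPER-FREE): `BTD.Ok q`, the numerical relations `BTNum` and the conclusion `W1At` of `RW.ex_W1` give `P(S) ≤ p`.
   Dictionary (report 832 X1), with ALL populations indexed by the sample space itself (no label types, no push-forwards): in the fibre of a successful `ω₀`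
   `mu ω = P(ω)/P(fibre)` on the points whose pair label is successful, tags = successful points, `nu ω' = P(ω')/P(fibre)`, slope `sl ω'/Λ₂`, `lam` = points whose label `y0` is successful.
   NO slope window, NO shear: the linear map `pt = ((y0 - y0⁰) τx, (yj - yj⁰) τy)`, `τx = 1/(Λ₁ W)`, `τy = τx/Λ₂ = ρ`, turns `yj - sl y0` into `kfProj (sl/Λ₂) pt / ρ`.
3. `BT/Adapt*.lean`: a model `M` with `M.Ok` gives `BTD.Ok`;   `BT/Num.lean`: `BTNum` for `L` large and `ε` small.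
-/

set_option autoImplicit false

namespace Claimed.Agent.R257.TR

open Claimed.Agent.R255 Claimed.Agent.RW
open scoped BigOperators
open Classical

/-- abstract data of the finite block test -/
structure BTD where
  /-- sample space -/
  Ω : Type
  fΩ : Fintype Ω
  /-- the law -/
  P : @FLaw Ω fΩ
  /-- labels of `(C, D₀)` -/
  φ : Type
  /-- labels of the alternative bin -/
  A : Type
  /-- the fibre label `(C, D₀)` -/
  Φ : Ω → φ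
  /-- the alternative bin -/
  a : Ω → A
  /-- end point label of the coordinate `0` -/
  y0 : Ω → ℤ
  /-- end point label of the coordinate `j` -/
  yj : Ω → ℤ
  /-- projection label -/
  pi : Ω → ℤ
  /-- prefix labels of the coordinate `0` -/
  z : ℕ → Ω → ℤ
  /-- approximate slope -/
  sl : Ω → ℝ
  /-- success -/
  S : Ω → Prop

attribute [instance] BTD.fΩ

/-- parameters -/
structure BTP where
  /-- exponents -/
  d : ℝ
  d₀ : ℝ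
  κ₀ : ℝ
  /-- tolerance -/
  α : ℝ
  /-- number of tested prefixes -/
  N : ℕ
  /-- `K = L^b` -/
  K : ℝ
  /-- `W = 2^(k_e - k_s)`: number of end point cells across the parent -/
  W : ℝ
  /-- range loss -/
  Λ₁ : ℝ
  /-- slope bound -/
  Λ₂ : ℝ
  /-- constant of the angular bound -/
  Cν : ℝ
  /-- `e k` = number of end point labels in a prefix cell of level `k` -/
  e : ℕ → ℝ

namespace BTD

variable (D : BTD)

/-- mass of the fibre -/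
noncomputable def mF (ω : D.Ω) : ℝ := D.P.pr (fun ω' => D.Φ ω' = D.Φ ω)
/-- mass of (fibre, alternative bin) -/
noncomputable def mFa (ω : D.Ω) : ℝ := D.P.pr (fun ω' => D.Φ ω' = D.Φ ω ∧ D.a ω' = D.a ω)
/-- mass of (fibre, pair label) -/
noncomputable def mY (ω : D.Ω) : ℝ := D.P.pr (fun ω' => D.Φ ω' = D.Φ ω ∧ D.y0 ω' = D.y0 ω ∧ D.yj ω' = D.yj ω)
/-- mass of (fibre, alternative bin, pair label) -/
noncomputable def mYa (ω : D.Ω) : ℝ :=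
  D.P.pr (fun ω' => D.Φ ω' = D.Φ ω ∧ D.a ω' = D.a ω ∧ D.y0 ω' = D.y0 ω ∧ D.yj ω' = D.yj ω)
/-- mass of (fibre, alternative bin, projection label) -/
noncomputable def mPa (ω : D.Ω) : ℝ := D.P.pr (fun ω' => D.Φ ω' = D.Φ ω ∧ D.a ω' = D.a ω ∧ D.pi ω' = D.pi ω)
/-- mass of (fibre, label `y0`) -/
noncomputable def m0 (ω : D.Ω) : ℝ := D.P.pr (fun ω' => D.Φ ω' = D.Φ ω ∧ D.y0 ω' = D.y0 ω)
/-- mass of (fibre, prefix label) -/
noncomputable def mZ (k : ℕ) (ω : D.Ω) : ℝ := D.P.pr (fun ω' => D.Φ ω' = D.Φ ω ∧ D.z k ω' = D.z k ω)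

/-- the hypotheses of the abstract block test -/
structure Ok (q : BTP) : Prop where
  K_ge : 1 ≤ q.K
  W_ge : 1 ≤ q.W
  W_le : q.W ≤ 2 * q.K
  Λ₁_ge : 1 ≤ q.Λ₁
  Λ₂_ge : 1 ≤ q.Λ₂
  Cν_nonneg : 0 ≤ q.Cν
  N_pos : 1 ≤ q.N
  d₀_pos : 0 < q.d₀
  κ₀_pos : 0 < q.κ₀
  α_pos : 0 < q.α
  S_pos : ∀ ω, D.S ω → 0 < D.P.p ω
  /-- (t:fiber-masses) -/
  h1l : ∀ ω, D.S ω → q.K ^ (-2 * q.d - q.α) * D.mF ω ≤ D.mY ω
  h1u : ∀ ω, D.S ω → D.mY ω ≤ q.K ^ (-2 * q.d + q.α) * D.mF ω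
  h2u : ∀ ω, D.S ω → D.mYa ω ≤ q.K ^ (-2 * q.d + q.α) * D.mFa ω
  h3 : ∀ ω, D.S ω → q.K ^ (-q.d - q.α) * D.mFa ω ≤ D.mPa ω
  h4 : ∀ ω, D.S ω → q.K ^ (-q.d - q.α) * D.mF ω ≤ D.m0 ω
  h6 : ∀ ω, D.S ω → ∀ k : ℕ, 1 ≤ k → k ≤ q.N → D.mZ k ω ≤ q.K ^ (-q.d₀ * k / q.N + q.α) * D.mF ω
  /-- (t:angular-probability), not normalised -/
  h7 : ∀ (ω₀ : D.Ω) (c r : ℝ), 1 / (2 * q.Λ₁ * q.K) ≤ r →
    D.P.pr (fun ω => D.S ω ∧ D.Φ ω = D.Φ ω₀ ∧ |D.sl ω - c| ≤ r) ≤ q.Cν * r ^ q.κ₀ * D.mF ω₀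
  /-- geometry of the labels -/
  g_sl : ∀ ω ω', D.Φ ω = D.Φ ω' → D.a ω = D.a ω' → D.sl ω = D.sl ω'
  g_slb : ∀ ω, |D.sl ω| ≤ q.Λ₂
  g_pi : ∀ ω, |(D.yj ω : ℝ) - D.sl ω * D.y0 ω - D.pi ω| ≤ 1 + q.Λ₂
  g_rng : ∀ ω ω', D.Φ ω = D.Φ ω' → |(D.y0 ω : ℝ) - D.y0 ω'| ≤ q.Λ₁ * q.W ∧ |(D.yj ω : ℝ) - D.yj ω'| ≤ q.Λ₁ * q.W
  /-- the labels `y0` of a prefix cell form an interval of length `e k` -/
  g_nest : ∀ (k : ℕ) (ω : D.Ω), 1 ≤ k → k ≤ q.N → (D.z k ω : ℝ) * q.e k ≤ D.y0 ω ∧ (D.y0 ω : ℝ) < ((D.z k ω : ℝ) + 1) * q.e k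
  e_lo : ∀ k : ℕ, 1 ≤ k → k ≤ q.N → q.K ^ (1 - (k : ℝ) / q.N) / 2 ≤ q.e k

/-! ### the populations in the fibre of `ω₀` -/

variable (ω₀ : D.Ω)

/-- the fibre of `ω₀` -/
def Fb (ω : D.Ω) : Prop := D.Φ ω = D.Φ ω₀

/-- the pair label of `ω` has a successful realisation in the fibre -/
def gY (ω : D.Ω) : Prop := ∃ ω'', D.S ω'' ∧ D.Fb ω₀ ω'' ∧ D.y0 ω'' = D.y0 ω ∧ D.yj ω'' = D.yj ω

/-- the label `y0` of `ω` has a successful realisation in the fibre -/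
def g0 (ω : D.Ω) : Prop := ∃ ω'', D.S ω'' ∧ D.Fb ω₀ ω'' ∧ D.y0 ω'' = D.y0 ω

/-- point population -/
noncomputable def mu (ω : D.Ω) : ℝ := if D.Fb ω₀ ω ∧ D.gY ω₀ ω then D.P.p ω / D.mF ω₀ else 0

/-- tag population -/
noncomputable def nu (ω : D.Ω) : ℝ := if D.Fb ω₀ ω ∧ D.S ω then D.P.p ω / D.mF ω₀ else 0

/-- reference law of the first coordinate -/
noncomputable def lam (ω : D.Ω) : ℝ := if D.Fb ω₀ ω ∧ D.g0 ω₀ ω then D.P.p ω / D.mF ω₀ else 0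

/-- the incidence graph: the pair label of the point has a successful realisation in the alternative bin of the tag -/
noncomputable def G : Finset (D.Ω × D.Ω) :=
  Finset.univ.filter (fun x => D.Fb ω₀ x.1 ∧ D.Fb ω₀ x.2 ∧ D.S x.2 ∧
    ∃ ω'', D.S ω'' ∧ D.Fb ω₀ ω'' ∧ D.a ω'' = D.a x.2 ∧ D.y0 ω'' = D.y0 x.1 ∧ D.yj ω'' = D.yj x.1)

end BTD

namespace BTP

variable (q : BTP)

/-- the scale `ρ = 1/(Λ₁ Λ₂ W)` -/
noncomputable def rho : ℝ := 1 / (q.Λ₁ * q.Λ₂ * q.W)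

/-- horizontal mesh `τx = Λ₂ ρ` -/
noncomputable def tx : ℝ := 1 / (q.Λ₁ * q.W)

/-- the covering number `⌊K^(d+α)⌋ (2⌈Λ₂⌉ + 4)` -/
noncomputable def Mq : ℕ := ⌊q.K ^ (q.d + q.α)⌋₊ * (2 * ⌈q.Λ₂⌉₊ + 4)

/-- constant of the Frostman bound of the reference law -/
noncomputable def Cl : ℝ := 2 * q.K ^ q.α * (8 * q.K ^ (1 / (q.N : ℝ)) * q.Λ₁ * q.Λ₂) ^ q.d₀

end BTP

namespace BTD

variable (D : BTD) (q : BTP) (ω₀ : D.Ω)

/-- positions of the points -/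
noncomputable def pt (ω : D.Ω) : ℝ × ℝ :=
  if D.Fb ω₀ ω then (((D.y0 ω : ℝ) - D.y0 ω₀) * q.tx, ((D.yj ω : ℝ) - D.yj ω₀) * q.rho) else (0, 0)

/-- positions of the reference law -/
noncomputable def xr (ω : D.Ω) : ℝ := (D.pt q ω₀ ω).1

/-- normalised slopes -/
noncomputable def sn (ω : D.Ω) : ℝ := D.sl ω / q.Λ₂

end BTD

/-- the conclusion of `RW.ex_W1 β γ σ 1` for given `χ, ρ₁` -/
def W1At (β γ σ χ ρ₁ : ℝ) : Prop :=
  ∀ ρ : ℝ, 0 < ρ → ρ < ρ₁ →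
    ∀ (X T J : Type) [Fintype X] [Fintype T] [Fintype J] (μ : X → ℝ) (ν : T → ℝ) (pt : X → ℝ × ℝ) (sl : T → ℝ)
      (G : Finset (X × T)) (M : ℕ) (lam xr : J → ℝ),
      ExTest ρ χ 1 γ μ ν pt sl G M →
      (∀ j, 0 ≤ lam j) → KfFrost lam xr (ρ ^ (-χ)) β ρ →
      (∀ z : ℝ × ℝ, ∑ x with dist (pt x) z ≤ ρ, μ x ≤ ρ ^ (σ - χ) * ∑ j with dist (xr j) z.1 ≤ 1 * ρ, lam j) →
      ρ ^ (-σ - χ) ≤ (M : ℝ)

/-- the numerical relations -/
structure BTNum (q : BTP) (χ ρ₁ p : ℝ) : Prop where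
  n1 : q.rho < ρ₁
  n2 : q.Cν * q.Λ₂ ^ q.κ₀ ≤ q.rho ^ (-χ)
  n3 : q.rho ^ χ ≤ q.K ^ (-2 * q.α) * p ^ 2
  n4 : q.Cl ≤ q.rho ^ (-χ)
  n5 : 9 * q.K ^ (-q.d + 2 * q.α) ≤ q.rho ^ (q.d - χ)
  n6 : (q.Mq : ℝ) < q.rho ^ (-q.d - χ)

/-- Stores the on-demand equation lemmas of the definitions above in THIS module (rule 6 hygiene). -/
theorem tr_bt_defs_forced : True := by
  have := @BTD.mF.eq_1
  have := @BTD.mFa.eq_1
  have := @BTD.mY.eq_1
  have := @BTD.mYa.eq_1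
  have := @BTD.mPa.eq_1
  have := @BTD.m0.eq_1
  have := @BTD.mZ.eq_1
  have := @BTD.Fb.eq_1
  have := @BTD.gY.eq_1
  have := @BTD.g0.eq_1
  have := @BTD.mu.eq_1
  have := @BTD.nu.eq_1
  have := @BTD.lam.eq_1
  have := @BTD.G.eq_1
  have := @BTP.rho.eq_1
  have := @BTP.tx.eq_1
  have := @BTP.Mq.eq_1
  have := @BTP.Cl.eq_1
  have := @BTD.pt.eq_1
  have := @BTD.xr.eq_1
  have := @BTD.sn.eq_1
  have := @W1At.eq_1
  trivial

end Claimed.Agent.R257.TR
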