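import Claimed.Agent.R257.TR.BT.Defs

/-!
# R257 / TR / BT / Num : the numerical relations `BTNum`      (helper194)      PAPER-FREE

All subpower quantities are bounded by `K^t` with a small exponent `t`:  `2 ≤ K^t`, `Λ₁, Λ₂ ≤ K^t`, `Cν ≤ K^(α + κ₀/N + t)`, `K^(-t) ≤ p²`.   Then `K^(1-t) ≤ 1/ρ ≤ K^(1+3t)` and the six relations follow from four
linear inequalities between the exponents (`c1 … c4`), which hold e.g. for `α = χ/16`, `κ₀/N, d₀/N ≤ χ/16`, `t (7 + κ₀ + 5 d₀) ≤ χ/8`, `t ≤ 1/2`.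
-/

set_option autoImplicit false

namespace Claimed.Agent.R257.TR

open Claimed.Agent.R255 Claimed.Agent.RW
open scoped BigOperators
open Classical

/-- the hypotheses on the sizes -/
structure BTSize (q : BTP) (t : ℝ) : Prop where
  K_gt : 1 < q.K
  t_nonneg : 0 ≤ t
  t_le : t ≤ 1 / 2
  two : 2 ≤ q.K ^ t
  W_lo : q.K / 2 ≤ q.W
  W_hi : q.W ≤ 2 * q.K
  Λ₁_ge : 1 ≤ q.Λ₁
  Λ₁_le : q.Λ₁ ≤ q.K ^ t
  Λ₂_ge : 1 ≤ q.Λ₂
  Λ₂_le : q.Λ₂ ≤ q.K ^ t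
  Cν_nonneg : 0 ≤ q.Cν
  Cν_le : q.Cν ≤ q.K ^ (q.α + q.κ₀ / q.N + t)

theorem tr_bt_num_rho_inv (q : BTP) : q.rho = (q.Λ₁ * q.Λ₂ * q.W)⁻¹ := by
  unfold BTP.rho; rw [one_div]

/-- `K^(1-t) ≤ 1/ρ` -/
theorem tr_bt_num_lo (q : BTP) (t : ℝ) (h : BTSize q t) : q.K ^ (1 - t) ≤ q.Λ₁ * q.Λ₂ * q.W := by
  have hK0 : 0 < q.K := by linarith [h.K_gt]
  have h1 : q.K ^ (1 - t) = q.K / q.K ^ t := by rw [Real.rpow_sub hK0, Real.rpow_one]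
  have h2 : q.K / q.K ^ t ≤ q.K / 2 := div_le_div_of_nonneg_left hK0.le (by norm_num) h.two
  have h3 : q.W ≤ q.Λ₁ * q.Λ₂ * q.W := by
    have hW : 0 ≤ q.W := le_trans (by positivity) h.W_lo
    have : 1 ≤ q.Λ₁ * q.Λ₂ := one_le_mul_of_one_le_of_one_le h.Λ₁_ge h.Λ₂_ge
    nlinarith
  rw [h1]
  exact h2.trans (h.W_lo.trans h3)

/-- `1/ρ ≤ K^(1+3t)` -/
theorem tr_bt_num_hi (q : BTP) (t : ℝ) (h : BTSize q t) : q.Λ₁ * q.Λ₂ * q.W ≤ q.K ^ (1 + 3 * t) := by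
  have hK0 : 0 < q.K := by linarith [h.K_gt]
  have hKt : 0 < q.K ^ t := Real.rpow_pos_of_pos hK0 _
  have e : q.K ^ (1 + 3 * t) = q.K ^ t * q.K ^ t * (q.K ^ t * q.K) := by
    rw [← Real.rpow_add hK0, ← Real.rpow_add_one hK0.ne', ← Real.rpow_add hK0]; congr 1; ring
  rw [e]
  have hΛ₁ : 0 ≤ q.Λ₁ := by linarith [h.Λ₁_ge]
  have hΛ₂ : 0 ≤ q.Λ₂ := by linarith [h.Λ₂_ge]
  have hW : q.W ≤ q.K ^ t * q.K := h.W_hi.trans (by gcongr; exact h.two)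
  have hW0 : 0 ≤ q.W := le_trans (by positivity) h.W_lo
  calc q.Λ₁ * q.Λ₂ * q.W ≤ q.K ^ t * q.K ^ t * (q.K ^ t * q.K) := by
        gcongr
        · exact h.Λ₁_le
        · exact h.Λ₂_le

theorem tr_bt_num_rho_pos (q : BTP) (t : ℝ) (h : BTSize q t) : 0 < q.rho := by
  have hK0 : 0 < q.K := by linarith [h.K_gt]
  rw [tr_bt_num_rho_inv q]
  exact inv_pos.2 (lt_of_lt_of_le (Real.rpow_pos_of_pos hK0 _) (tr_bt_num_lo q t h))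

/-- negative powers of `ρ` from below: `K^((1-t) x) ≤ ρ^(-x)` for `x ≥ 0` -/
theorem tr_bt_num_neg (q : BTP) (t : ℝ) (h : BTSize q t) (x : ℝ) (hx : 0 ≤ x) : q.K ^ ((1 - t) * x) ≤ q.rho ^ (-x) := by
  have hK0 : 0 < q.K := by linarith [h.K_gt]
  have hpos : 0 < q.Λ₁ * q.Λ₂ * q.W := lt_of_lt_of_le (Real.rpow_pos_of_pos hK0 _) (tr_bt_num_lo q t h)
  rw [tr_bt_num_rho_inv q, Real.inv_rpow hpos.le, Real.rpow_neg hpos.le, inv_inv, Real.rpow_mul hK0.le]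
  exact Real.rpow_le_rpow (Real.rpow_pos_of_pos hK0 _).le (tr_bt_num_lo q t h) hx

/-- positive powers of `ρ` from below: `K^(-(1+3t) x) ≤ ρ^x` for `x ≥ 0` -/
theorem tr_bt_num_pos (q : BTP) (t : ℝ) (h : BTSize q t) (x : ℝ) (hx : 0 ≤ x) : q.K ^ (-((1 + 3 * t) * x)) ≤ q.rho ^ x := by
  have hK0 : 0 < q.K := by linarith [h.K_gt]
  have hpos : 0 < q.Λ₁ * q.Λ₂ * q.W := lt_of_lt_of_le (Real.rpow_pos_of_pos hK0 _) (tr_bt_num_lo q t h)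
  rw [tr_bt_num_rho_inv q, Real.inv_rpow hpos.le, Real.rpow_neg hK0.le, Real.rpow_mul hK0.le]
  exact inv_anti₀ (Real.rpow_pos_of_pos hpos _) (Real.rpow_le_rpow hpos.le (tr_bt_num_hi q t h) hx)

/-- positive powers of `ρ` from above: `ρ^x ≤ K^(-(1-t) x)` for `x ≥ 0` -/
theorem tr_bt_num_pos_le (q : BTP) (t : ℝ) (h : BTSize q t) (x : ℝ) (hx : 0 ≤ x) : q.rho ^ x ≤ q.K ^ (-((1 - t) * x)) := by
  have hK0 : 0 < q.K := by linarith [h.K_gt]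
  have hρ := tr_bt_num_rho_pos q t h
  have h1 := tr_bt_num_neg q t h x hx
  rw [Real.rpow_neg hρ.le] at h1
  rw [Real.rpow_neg hK0.le]
  exact (le_inv_comm₀ (Real.rpow_pos_of_pos hK0 _) (Real.rpow_pos_of_pos hρ _)).1 h1

/-- **the numerical relations** -/
theorem tr_bt_num (q : BTP) (χ ρ₁ p t : ℝ) (h : BTSize q t) (hχ : 0 < χ) (hd0 : 0 < q.d) (hd1 : q.d < 1) (hd₀ : 0 < q.d₀)
    (hκ₀ : 0 < q.κ₀) (hα : 0 < q.α) (hp : q.K ^ (-t) ≤ p ^ 2) (hρ₁ : q.K ^ (-(1 - t)) < ρ₁)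
    (c1 : q.α + q.κ₀ / q.N + t * (1 + q.κ₀) ≤ χ / 2) (c2 : 2 * q.α + t ≤ χ / 2)
    (c3 : t + q.α + (5 * t + 1 / q.N) * q.d₀ ≤ χ / 2) (c4 : 7 * t + 2 * q.α ≤ χ / 2) :
    BTNum q χ ρ₁ p := by
  have hK1 := h.K_gt
  have hK0 : 0 < q.K := by linarith
  have ht0 := h.t_nonneg
  have ht1 := h.t_le
  have hKt : 0 < q.K ^ t := Real.rpow_pos_of_pos hK0 _
  have hρ := tr_bt_num_rho_pos q t h
  have hχ2 : χ / 2 ≤ (1 - t) * χ := by nlinarith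
  have hmono : ∀ x y : ℝ, x ≤ y → q.K ^ x ≤ q.K ^ y := fun x y hxy => Real.rpow_le_rpow_of_exponent_le hK1.le hxy
  have hΛ₁0 : 0 < q.Λ₁ := by linarith [h.Λ₁_ge]
  have hΛ₂0 : 0 < q.Λ₂ := by linarith [h.Λ₂_ge]
  have hbig : q.K ^ (χ / 2) ≤ q.rho ^ (-χ) := (hmono _ _ hχ2).trans (tr_bt_num_neg q t h χ hχ.le)
  refine ⟨?_, ?_, ?_, ?_, ?_, ?_⟩
  · -- n1
    have := tr_bt_num_pos_le q t h 1 (by norm_num)
    rw [Real.rpow_one, mul_one] at this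
    exact lt_of_le_of_lt this hρ₁
  · -- n2
    refine le_trans ?_ hbig
    have h1 : q.Λ₂ ^ q.κ₀ ≤ q.K ^ (t * q.κ₀) := by
      rw [Real.rpow_mul hK0.le]
      exact Real.rpow_le_rpow hΛ₂0.le h.Λ₂_le hκ₀.le
    calc q.Cν * q.Λ₂ ^ q.κ₀ ≤ q.K ^ (q.α + q.κ₀ / q.N + t) * q.K ^ (t * q.κ₀) := by
          gcongr
          exact h.Cν_le
      _ = q.K ^ (q.α + q.κ₀ / q.N + t * (1 + q.κ₀)) := by rw [← Real.rpow_add hK0]; congr 1; ring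
      _ ≤ _ := hmono _ _ c1
  · -- n3
    have h1 := tr_bt_num_pos_le q t h χ hχ.le
    refine h1.trans ?_
    calc q.K ^ (-((1 - t) * χ)) ≤ q.K ^ (-2 * q.α + -t) := hmono _ _ (by linarith)
      _ = q.K ^ (-2 * q.α) * q.K ^ (-t) := Real.rpow_add hK0 _ _
      _ ≤ _ := by gcongr
  · -- n4
    refine le_trans ?_ hbig
    have h8 : (8 : ℝ) ≤ q.K ^ (3 * t) := by
      have : q.K ^ (3 * t) = (q.K ^ t) ^ 3 := by
        rw [← Real.rpow_natCast, ← Real.rpow_mul hK0.le]; congr 1; push_cast; ring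
      rw [this]
      calc (8 : ℝ) = 2 ^ 3 := by norm_num
        _ ≤ _ := by gcongr; exact h.two
    have h1 : 8 * q.K ^ (1 / (q.N : ℝ)) * q.Λ₁ * q.Λ₂ ≤ q.K ^ (5 * t + 1 / q.N) := by
      have e : q.K ^ (5 * t + 1 / (q.N : ℝ)) = q.K ^ (3 * t) * q.K ^ (1 / (q.N : ℝ)) * q.K ^ t * q.K ^ t := by
        rw [← Real.rpow_add hK0, ← Real.rpow_add hK0, ← Real.rpow_add hK0]; congr 1; ring
      rw [e]
      gcongr
      · exact h.Λ₁_le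
      · exact h.Λ₂_le
    have h2 : (8 * q.K ^ (1 / (q.N : ℝ)) * q.Λ₁ * q.Λ₂) ^ q.d₀ ≤ q.K ^ ((5 * t + 1 / q.N) * q.d₀) := by
      rw [Real.rpow_mul hK0.le]
      exact Real.rpow_le_rpow (by positivity) h1 hd₀.le
    unfold BTP.Cl
    calc 2 * q.K ^ q.α * (8 * q.K ^ (1 / (q.N : ℝ)) * q.Λ₁ * q.Λ₂) ^ q.d₀
        ≤ q.K ^ t * q.K ^ q.α * q.K ^ ((5 * t + 1 / q.N) * q.d₀) := by
          gcongr
          exact h.two
      _ = q.K ^ (t + q.α + (5 * t + 1 / q.N) * q.d₀) := by rw [← Real.rpow_add hK0, ← Real.rpow_add hK0]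
      _ ≤ _ := hmono _ _ c3
  · -- n5
    have h9 : (9 : ℝ) ≤ q.K ^ (4 * t) := by
      have : q.K ^ (4 * t) = (q.K ^ t) ^ 4 := by
        rw [← Real.rpow_natCast, ← Real.rpow_mul hK0.le]; congr 1; push_cast; ring
      rw [this]
      calc (9 : ℝ) ≤ 2 ^ 4 := by norm_num
        _ ≤ _ := by gcongr; exact h.two
    have e : q.rho ^ (q.d - χ) = q.rho ^ q.d * q.rho ^ (-χ) := by rw [← Real.rpow_add hρ]; congr 1
    rw [e]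
    have h1 := tr_bt_num_pos q t h q.d hd0.le
    calc 9 * q.K ^ (-q.d + 2 * q.α) ≤ q.K ^ (4 * t) * q.K ^ (-q.d + 2 * q.α) := by gcongr
      _ = q.K ^ (4 * t + (-q.d + 2 * q.α)) := by rw [← Real.rpow_add hK0]
      _ ≤ q.K ^ (-((1 + 3 * t) * q.d) + χ / 2) := hmono _ _ (by nlinarith)
      _ = q.K ^ (-((1 + 3 * t) * q.d)) * q.K ^ (χ / 2) := Real.rpow_add hK0 _ _
      _ ≤ _ := by gcongr
  · -- n6
    have h1 : (q.Mq : ℝ) ≤ q.K ^ (q.d + q.α) * (8 * q.Λ₂) := by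
      unfold BTP.Mq
      push_cast
      have a1 : ((⌊q.K ^ (q.d + q.α)⌋₊ : ℕ) : ℝ) ≤ q.K ^ (q.d + q.α) := Nat.floor_le (Real.rpow_pos_of_pos hK0 _).le
      have a2 : ((⌈q.Λ₂⌉₊ : ℕ) : ℝ) ≤ q.Λ₂ + 1 := (Nat.ceil_lt_add_one hΛ₂0.le).le
      have a3 : 2 * ((⌈q.Λ₂⌉₊ : ℕ) : ℝ) + 4 ≤ 8 * q.Λ₂ := by linarith [h.Λ₂_ge]
      gcongr
    have h8 : (8 : ℝ) ≤ q.K ^ (3 * t) := by
      have : q.K ^ (3 * t) = (q.K ^ t) ^ 3 := by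
        rw [← Real.rpow_natCast, ← Real.rpow_mul hK0.le]; congr 1; push_cast; ring
      rw [this]
      calc (8 : ℝ) = 2 ^ 3 := by norm_num
        _ ≤ _ := by gcongr; exact h.two
    have h2 : q.K ^ (q.d + q.α) * (8 * q.Λ₂) ≤ q.K ^ (q.d + q.α + 4 * t) := by
      have e : q.K ^ (q.d + q.α + 4 * t) = q.K ^ (q.d + q.α) * (q.K ^ (3 * t) * q.K ^ t) := by
        rw [← Real.rpow_add hK0, ← Real.rpow_add hK0]; congr 1; ring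
      rw [e]
      gcongr
      exact h.Λ₂_le
    have h3 : q.K ^ (q.d + q.α + 4 * t) < q.K ^ ((1 - t) * (q.d + χ)) :=
      Real.rpow_lt_rpow_of_exponent_lt hK1 (by nlinarith)
    have h4 := tr_bt_num_neg q t h (q.d + χ) (by linarith)
    have e : -q.d - χ = -(q.d + χ) := by ring
    rw [e]
    exact lt_of_le_of_lt (h1.trans h2) (lt_of_lt_of_le h3 h4)

end Claimed.Agent.R257.TR
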