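import Claimed.Agent.R257.TR.BT.AOk
import Claimed.Agent.R257.TR.BT.Num
import Claimed.Agent.R257.TR.Main

/-!
# R257 / TR / BT / Main : EXIT of the post BT      (helper194; instance and abstract test: helper176)

`tr_bt_fin : 2 ≤ n → TSeqOk M R₀ c₁ Cτ → BTFin M`,   `tr_bt_all : 2 ≤ n → BtAll n`.
* `tr_bt_size`   ONE smallness condition `1158 (R₀+n+1)⁶ Q⁶ ≤ L^δ` (`δ ≤ b t`, `δ κ₀ ≤ b t`) gives `BTSize (M.btp …) t` and the condition `hs` of the geometric API;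
* `tr_bt_one`    one model: `P(vec ∈ UBT) ≤ p`;
* `tr_bt_fin`    choice `α = χ/16`, `N ≥ 16 max(κ₀,d₀)/χ`, `t = min (1/2) (χ/(8(7+κ₀+5d₀)))`, `χ` from `RW.ex_W1`.
-/

set_option autoImplicit false

namespace Claimed.Agent.R257.TR

open Claimed.Agent.R255 Claimed.Agent.R257 Claimed.Agent.RW MeasureTheory Filter Topology
open scoped BigOperators ENNReal
open Classical

variable {n : ℕ} {M : TModel n} {R₀ c₁ Cτ : ℝ}

/-- the master subpower quantity -/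
noncomputable def TModel.btX (M : TModel n) (R₀ : ℝ) : ℝ := 1158 * (R₀ + n + 1) ^ 6 * (M.L ^ M.ε) ^ 6

/-- all subpower quantities of the instance are bounded by `btX` -/
theorem tr_bt_X_bounds (hM : M.Ok R₀ c₁ Cτ) :
    2 ≤ M.btX R₀ ∧ 4 * (n : ℝ) * M.L ^ M.ε ≤ M.btX R₀ ∧ M.L ^ M.ε * (n + 2) + 1 ≤ M.btX R₀ ∧ M.btA R₀ ^ 2 ≤ M.btX R₀ ∧
      2 * (M.L ^ M.ε * (n + 2) + 1) * (1 + 2 * M.btL3 R₀) ≤ M.btX R₀ := by
  have hQ : 1 ≤ M.L ^ M.ε := tr_geo_one_le_Q hM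
  have hR : 0 ≤ R₀ := tr_geo_R_nonneg hM
  have hn0 : (0 : ℝ) ≤ n := Nat.cast_nonneg n
  have hB : 1 ≤ R₀ + n + 1 := by linarith
  have hnB : (n : ℝ) + 1 ≤ R₀ + n + 1 := by linarith
  unfold TModel.btX TModel.btL3 TModel.btA
  generalize M.L ^ M.ε = Q at hQ ⊢
  generalize R₀ + (n : ℝ) + 1 = B at hB hnB ⊢
  have hQk : ∀ k l : ℕ, k ≤ l → Q ^ k ≤ Q ^ l := fun k l h => pow_le_pow_right₀ hQ h
  have hBk : ∀ k l : ℕ, k ≤ l → B ^ k ≤ B ^ l := fun k l h => pow_le_pow_right₀ hB h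
  have hQ6 : 1 ≤ Q ^ 6 := one_le_pow₀ hQ
  have hB6 : 1 ≤ B ^ 6 := one_le_pow₀ hB
  have hBQ : 1 ≤ B ^ 6 * Q ^ 6 := one_le_mul_of_one_le_of_one_le hB6 hQ6
  have hmon : ∀ k l : ℕ, k ≤ 6 → l ≤ 6 → B ^ k * Q ^ l ≤ B ^ 6 * Q ^ 6 := fun k l hk hl =>
    mul_le_mul (hBk k 6 hk) (hQk l 6 hl) (by positivity) (by positivity)
  have hΛ : Q * (n + 2) + 1 ≤ 3 * (B ^ 1 * Q ^ 1) := by
    rw [pow_one, pow_one]; nlinarith
  have hΛ0 : 0 ≤ Q * ((n : ℝ) + 2) + 1 := by positivity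
  refine ⟨by nlinarith, ?_, ?_, ?_, ?_⟩
  · have := hmon 1 1 (by norm_num) (by norm_num)
    rw [pow_one, pow_one] at this
    nlinarith
  · have := hmon 1 1 (by norm_num) (by norm_num)
    nlinarith
  · have := hmon 2 2 (by norm_num) (by norm_num)
    calc (2 * Q * B) ^ 2 = 4 * (B ^ 2 * Q ^ 2) := by ring
      _ ≤ 4 * (B ^ 6 * Q ^ 6) := by gcongr
      _ ≤ _ := by nlinarith
  · have h3 : 4 * n * Q * (2 * Q * B) ^ 3 * (1 + 2 * Q * B) ≤ 96 * (B ^ 5 * Q ^ 5) := by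
      have a1 : 1 + 2 * Q * B ≤ 3 * (Q * B) := by nlinarith
      have a2 : (n : ℝ) ≤ B := by linarith
      calc 4 * n * Q * (2 * Q * B) ^ 3 * (1 + 2 * Q * B) ≤ 4 * B * Q * (2 * Q * B) ^ 3 * (3 * (Q * B)) := by gcongr
        _ = 96 * (B ^ 5 * Q ^ 5) := by ring
    have h5 : 1 ≤ B ^ 5 * Q ^ 5 := one_le_mul_of_one_le_of_one_le (one_le_pow₀ hB) (one_le_pow₀ hQ)
    calc 2 * (Q * (n + 2) + 1) * (1 + 2 * (4 * n * Q * (2 * Q * B) ^ 3 * (1 + 2 * Q * B)))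
        ≤ 2 * (3 * (B ^ 1 * Q ^ 1)) * (1 + 2 * (96 * (B ^ 5 * Q ^ 5))) := by gcongr
      _ ≤ 2 * (3 * (B ^ 1 * Q ^ 1)) * (193 * (B ^ 5 * Q ^ 5)) := by gcongr; linarith
      _ = 1158 * B ^ 6 * Q ^ 6 := by ring

/-- **the sizes of the instance** -/
theorem tr_bt_size (hM : M.Ok R₀ c₁ Cτ) (d d₀ κ₀ α : ℝ) (N : ℕ) (s b : ℚ) (hblk : EBlk s b) (hκ₀ : 0 < κ₀) (t δ : ℝ) (ht0 : 0 ≤ t)
    (ht : t ≤ 1 / 2) (hδ1 : δ ≤ b * t) (hδ2 : δ * κ₀ ≤ b * t) (hX : M.btX R₀ ≤ M.L ^ δ) :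
    BTSize (M.btp R₀ d d₀ κ₀ α N s b) t := by
  obtain ⟨hs0, hb0, hsb1, hb8⟩ := hblk
  obtain ⟨x1, -, x3, x4, x5⟩ := tr_bt_X_bounds hM
  have hL2 : 2 ≤ M.L := hM.L_ge
  have hL1 : 1 < M.L := by linarith
  have hL0 : 0 < M.L := by linarith
  have hbR : (0 : ℝ) < b := by exact_mod_cast hb0
  have hQ : 1 ≤ M.L ^ M.ε := tr_geo_one_le_Q hM
  have hn0 : (0 : ℝ) ≤ n := Nat.cast_nonneg n
  have hA := tr_bt_btA_ge hM
  have hKt : (M.L ^ (b : ℝ)) ^ t = M.L ^ ((b : ℝ) * t) := tr_bt_K_pow _ hL0 _ _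
  have hXK : M.btX R₀ ≤ (M.L ^ (b : ℝ)) ^ t := by
    rw [hKt]
    exact hX.trans (Real.rpow_le_rpow_of_exponent_le hL1.le hδ1)
  have hcast : ((s + b : ℚ) : ℝ) - s = b := by push_cast; ring
  have hL3 : 0 ≤ M.btL3 R₀ := by
    unfold TModel.btL3
    have : 0 ≤ M.btA R₀ := by linarith
    positivity
  have hΛ1 : 1 ≤ M.L ^ M.ε * ((n : ℝ) + 2) + 1 := by
    have : 0 ≤ M.L ^ M.ε * ((n : ℝ) + 2) := by positivity
    linarith
  refine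
    { K_gt := Real.one_lt_rpow hL1 hbR
      t_nonneg := ht0
      t_le := ht
      two := x1.trans hXK
      W_lo := ?_
      W_hi := ?_
      Λ₁_ge := hΛ1
      Λ₁_le := x3.trans hXK
      Λ₂_ge := ?_
      Λ₂_le := x4.trans hXK
      Cν_nonneg := ?_
      Cν_le := ?_ }
  · have := tr_bt_sc_lo M.L hL2 s (s + b) hs0
    rw [hcast] at this
    exact this
  · have := tr_geo_sc_ratio M.L hL2 s (s + b) (by linarith)
    rw [hcast] at this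
    exact this
  · show 1 ≤ M.btA R₀ ^ 2
    nlinarith
  · show 0 ≤ (M.L ^ (b : ℝ)) ^ (α + κ₀ / N) * (2 * (M.L ^ M.ε * (n + 2) + 1) * (1 + 2 * M.btL3 R₀)) ^ κ₀
    positivity
  · show (M.L ^ (b : ℝ)) ^ (α + κ₀ / N) * (2 * (M.L ^ M.ε * (n + 2) + 1) * (1 + 2 * M.btL3 R₀)) ^ κ₀
      ≤ (M.L ^ (b : ℝ)) ^ (α + κ₀ / N + t)
    have hK0 : 0 < M.L ^ (b : ℝ) := Real.rpow_pos_of_pos hL0 _
    rw [Real.rpow_add hK0 (α + κ₀ / N) t]
    refine mul_le_mul_of_nonneg_left ?_ (Real.rpow_pos_of_pos hK0 _).le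
    calc (2 * (M.L ^ M.ε * (n + 2) + 1) * (1 + 2 * M.btL3 R₀)) ^ κ₀ ≤ (M.L ^ δ) ^ κ₀ :=
          Real.rpow_le_rpow (by positivity) (x5.trans hX) hκ₀.le
      _ = M.L ^ (δ * κ₀) := (Real.rpow_mul hL0.le _ _).symm
      _ ≤ M.L ^ ((b : ℝ) * t) := Real.rpow_le_rpow_of_exponent_le hL1.le hδ2
      _ = _ := hKt.symm

/-- **one model** -/
theorem tr_bt_one (hM : M.Ok R₀ c₁ Cτ) (d d₀ κ₀ α χ ρ₁ p t δ : ℝ) (N : ℕ) (j : Fin (n + 1)) (hj : j ≠ 0) (s b bs : ℚ)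
    (hblk : EBlk s b) (hbs : b ≤ bs) (hd0 : 0 < d) (hd1 : d < 1) (hd₀ : 0 < d₀) (hκ₀ : 0 < κ₀) (hα : 0 < α) (hN : 1 ≤ N) (hχ : 0 < χ)
    (hp : 0 < p) (hW : W1At d₀ κ₀ d χ ρ₁) (ht0 : 0 ≤ t) (ht : t ≤ 1 / 2) (hδ1 : δ ≤ b * t) (hδ2 : δ * κ₀ ≤ b * t)
    (hX : M.btX R₀ ≤ M.L ^ δ) (hp2 : M.L ^ (-((b : ℝ) * t)) ≤ p ^ 2) (hρ₁ : M.L ^ (-((b : ℝ) * (1 - t))) < ρ₁)
    (c1 : α + κ₀ / N + t * (1 + κ₀) ≤ χ / 2) (c2 : 2 * α + t ≤ χ / 2) (c3 : t + α + (5 * t + 1 / N) * d₀ ≤ χ / 2)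
    (c4 : 7 * t + 2 * α ≤ χ / 2) :
    M.law.pr (fun ω => M.sys.vec ω ∈ UBT d d₀ κ₀ α N j s b bs) ≤ p := by
  have hL2 : 2 ≤ M.L := hM.L_ge
  have hL1 : 1 < M.L := by linarith
  have hL0 : 0 < M.L := by linarith
  have hbR : (0 : ℝ) < b := by exact_mod_cast hblk.2.1
  have hbsR : (b : ℝ) ≤ bs := by exact_mod_cast hbs
  have hs : 4 * (n : ℝ) * M.L ^ M.ε ≤ M.L ^ (bs : ℝ) := by
    refine (tr_bt_X_bounds hM).2.1.trans (hX.trans (Real.rpow_le_rpow_of_exponent_le hL1.le ?_))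
    have : (b : ℝ) * t ≤ b * 1 := by gcongr; linarith
    linarith
  have hok := tr_bt_ok hM d d₀ κ₀ α N j hj s b bs hblk hbs hd₀ hκ₀ hα hN hs
  have hsize := tr_bt_size hM d d₀ κ₀ α N s b hblk hκ₀ t δ ht0 ht hδ1 hδ2 hX
  have hnum : BTNum (M.btp R₀ d d₀ κ₀ α N s b) χ ρ₁ p := by
    refine tr_bt_num _ χ ρ₁ p t hsize hχ hd0 hd1 hd₀ hκ₀ hα ?_ ?_ c1 c2 c3 c4
    · show (M.L ^ (b : ℝ)) ^ (-t) ≤ p ^ 2
      rw [tr_bt_K_pow _ hL0]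
      have e : (b : ℝ) * -t = -((b : ℝ) * t) := by ring
      rw [e]
      exact hp2
    · show (M.L ^ (b : ℝ)) ^ (-(1 - t)) < ρ₁
      rw [tr_bt_K_pow _ hL0]
      have e : (b : ℝ) * -(1 - t) = -((b : ℝ) * (1 - t)) := by ring
      rw [e]
      exact hρ₁
  have habs := tr_bt_abs (M.btd d d₀ κ₀ α N j s b bs) (M.btp R₀ d d₀ κ₀ α N s b) χ ρ₁ p hp hok hW hnum
  refine le_trans ?_ habs
  exact tr_info_pr_congr M.law _ _ (fun ω hω h => ⟨h, hω⟩)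

/-- the two off-axis indices are not `0` -/
theorem tr_bt_jx_ne (hn : 2 ≤ n) (j : Bool) : jx n j ≠ 0 := by
  unfold jx
  obtain ⟨m, rfl⟩ : ∃ m, n = m + 2 := ⟨n - 2, by omega⟩
  cases j
  · simp only [Bool.false_eq_true, if_false]
    intro h
    have := congrArg Fin.val h
    simp at this
  · simp only [if_true]
    intro h
    have h2 := congrArg Fin.val h
    have e : ((2 : Fin (m + 2 + 1)) : ℕ) = 2 := by
      show 2 % (m + 2 + 1) = 2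
      exact Nat.mod_eq_of_lt (by omega)
    rw [e] at h2
    simp at h2

/-- **EXIT of the post BT** -/
theorem tr_bt_fin (hn : 2 ≤ n) (M : ℕ → TModel n) (hM : TSeqOk M R₀ c₁ Cτ) : BTFin M := by
  intro d d₀ κ₀ hd0 hd1 hd₀ hκ₀ hlt
  obtain ⟨χ, hχ, ρ₁, hρ₁, hW⟩ := ex_W1 d₀ κ₀ d 1 hd₀ hκ₀ hd0.le (lt_min hd1 hlt) le_rfl
  have hW' : W1At d₀ κ₀ d χ ρ₁ := hW
  -- the choices
  obtain ⟨N, hNbig⟩ := exists_nat_gt (16 * (κ₀ + d₀ + 1) / χ)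
  have hN0 : (0 : ℝ) < N := lt_trans (by positivity) hNbig
  have hN1 : 1 ≤ N := by
    have : 0 < N := by exact_mod_cast hN0
    omega
  have hNχ : 16 * (κ₀ + d₀ + 1) < χ * N := by
    rw [div_lt_iff₀ hχ] at hNbig
    linarith
  have hκN : κ₀ / N ≤ χ / 16 := by
    rw [div_le_iff₀ hN0]; nlinarith
  have hdN : 1 / (N : ℝ) * d₀ ≤ χ / 16 := by
    rw [one_div, inv_mul_le_iff₀ hN0]; nlinarith
  set t : ℝ := min (1 / 2) (χ / (8 * (7 + κ₀ + 5 * d₀))) with ht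
  have hden : 0 < 8 * (7 + κ₀ + 5 * d₀) := by positivity
  have ht0 : 0 < t := lt_min (by norm_num) (by positivity)
  have ht1 : t ≤ 1 / 2 := min_le_left _ _
  have ht2 : t * (7 + κ₀ + 5 * d₀) ≤ χ / 8 := by
    have : t ≤ χ / (8 * (7 + κ₀ + 5 * d₀)) := min_le_right _ _
    rw [le_div_iff₀ hden] at this
    linarith
  have c1 : χ / 16 + κ₀ / N + t * (1 + κ₀) ≤ χ / 2 := by nlinarith
  have c2 : 2 * (χ / 16) + t ≤ χ / 2 := by nlinarith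
  have c3 : t + χ / 16 + (5 * t + 1 / N) * d₀ ≤ χ / 2 := by nlinarith
  have c4 : 7 * t + 2 * (χ / 16) ≤ χ / 2 := by nlinarith
  refine ⟨χ / 16, by positivity, N, hN1, fun j s b bs hblk hbs _ => ?_⟩
  have hbR : (0 : ℝ) < b := by exact_mod_cast hblk.2.1
  set δ : ℝ := b * t * min 1 (1 / κ₀) with hδ
  have hδ0 : 0 < δ := by
    have : 0 < min 1 (1 / κ₀) := lt_min one_pos (by positivity)
    positivity
  have hδ1 : δ ≤ b * t := by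
    have : min 1 (1 / κ₀) ≤ 1 := min_le_left _ _
    have h0 : 0 ≤ (b : ℝ) * t := by positivity
    calc δ ≤ b * t * 1 := by rw [hδ]; gcongr
      _ = _ := mul_one _
  have hδ2 : δ * κ₀ ≤ b * t := by
    have : min 1 (1 / κ₀) ≤ 1 / κ₀ := min_le_right _ _
    have h0 : 0 ≤ (b : ℝ) * t := by positivity
    calc δ * κ₀ ≤ b * t * (1 / κ₀) * κ₀ := by rw [hδ]; gcongr
      _ = _ := by field_simp
  have hprU : (iSeqV (tSys M)).prU (UBT d d₀ κ₀ (χ / 16) N (jx n j) s b bs)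
      = fun m => (M m).law.pr (fun ω => (M m).sys.vec ω ∈ UBT d d₀ κ₀ (χ / 16) N (jx n j) s b bs) := rfl
  rw [hprU]
  -- eventual smallness
  have hLtop : Tendsto (fun m => (M m).L) uf atTop := hM.L_top.mono_left uf_le_atTop
  have hsmall : ∀ e : ℝ, 0 < e → ∀ a : ℝ, 0 < a → ∀ᶠ m in uf, (M m).L ^ (-e) < a := by
    intro e he a ha
    have h1 : Tendsto (fun m => (M m).L ^ (-e)) uf (𝓝 0) := (tendsto_rpow_neg_atTop he).comp hLtop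
    exact h1.eventually (gt_mem_nhds ha)
  set Kc : ℝ := 1158 * (R₀ + n + 1) ^ 6 + 6 with hKc
  have hR0 : 0 ≤ R₀ := tr_geo_R_nonneg (hM.ok 0)
  have hXev : ∀ᶠ m in uf, (M m).btX R₀ ≤ (M m).L ^ δ := by
    filter_upwards [tr_geo_sm_ev hM Kc δ hδ0] with m hm
    have h1 := tr_geo_sm_use (hM.ok m) (1158 * (R₀ + n + 1) ^ 6) 6 Kc δ (by positivity) (by rw [hKc]; linarith)
      (by rw [hKc]; have : 0 ≤ 1158 * (R₀ + n + 1) ^ 6 := by positivity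
          linarith) hm
    refine le_trans (le_of_eq ?_) h1
    unfold TModel.btX
    have hL0 : 0 < (M m).L := tr_geo_L_pos (hM.ok m)
    have e : ((M m).L ^ (M m).ε) ^ 6 = (M m).L ^ (6 * (M m).ε) := by
      rw [← Real.rpow_natCast ((M m).L ^ (M m).ε) 6, ← Real.rpow_mul hL0.le]
      congr 1
      push_cast
      ring
    rw [e]
  rw [tendsto_order]
  constructor
  · intro a ha
    exact Eventually.of_forall fun m => lt_of_lt_of_le ha (tr_info_pr_nonneg _ _)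
  · intro a ha
    have hp : 0 < a / 2 := by positivity
    filter_upwards [hXev, hsmall ((b : ℝ) * t) (by positivity) ((a / 2) ^ 2) (by positivity),
      hsmall ((b : ℝ) * (1 - t)) (by have : 0 < 1 - t := by linarith
                                     positivity) ρ₁ hρ₁] with m h1 h2 h3
    have := tr_bt_one (hM.ok m) d d₀ κ₀ (χ / 16) χ ρ₁ (a / 2) t δ N (jx n j) (tr_bt_jx_ne hn j) s b bs hblk hbs hd0 hd1 hd₀ hκ₀
      (by positivity) hN1 hχ hp hW' ht0.le ht1 hδ1 hδ2 h1 h2.le h3 c1 c2 c3 c4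
    linarith

/-- exit in the form of `TR/Main.lean` -/
theorem tr_bt_all (hn : 2 ≤ n) : BtAll n := fun _ _ _ M _ _ hM => tr_bt_fin hn M hM

/-- Stores the on-demand equation lemmas of the definitions above in THIS module (rule 6 hygiene). -/
theorem tr_bt_main_forced : True := by
  have := @TModel.btX.eq_1
  trivial

end Claimed.Agent.R257.TR
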